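import Vale.Agent.P092.H411.NAgr
import Vale.Agent.P092.SP.UL

/-!
P092, TEAM P (helper494), row [P-AGR]: the limit maps of two different vertices agree nowhere.
-/

set_option linter.all false

open scoped InnerProductSpace
open ContinuousLinearMap

namespace Vale.Agent.P092.H494.PAg

open Vale.Agent.P092.RC (Cm TRN Moore Pic)
open Vale.Agent.P092.H76.Pur (NIS Cov Inv UCP const_false)
open Vale.Agent.P092.H411 (Nrm agr_dich nrm_cov')
open Vale.Agent.P092.SP (UL)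

variable {G Γ K : Type} [Group G] [TopologicalSpace G] [Group Γ] [NormedAddCommGroup K]
  [InnerProductSpace ℂ K] [CompleteSpace K]
  {π : G →* (K →L[ℂ] K)} {lam : Γ →* (K →L[ℂ] K)} {W : Set (K →L[ℂ] K)} {Ω : K}
  {Y : Type*} [TopologicalSpace Y] [CompactSpace Y]

/-- the mass is at most one -/
theorem ul_le_one {E : C(Y, ℂ) →ₗ[ℂ] (K →L[ℂ] K)} {p : ℝ} (h : UL E p) (hΩ : ‖Ω‖ = 1) :
    0 ≤ p ∧ p ≤ 1 := by
  have h1 := h.bes 1 (fun _ => 1) Ω
  simp only [Fin.sum_univ_one] at h1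
  rw [star_one, one_mul, h.one] at h1
  have h2 : ‖((p : ℂ) • (1 : K →L[ℂ] K)) Ω‖ = |p| := by
    change ‖(p : ℂ) • Ω‖ = _
    rw [norm_smul, hΩ, mul_one, Complex.norm_real, Real.norm_eq_abs]
  have h3 : (⟪Ω, ((p : ℂ) • (1 : K →L[ℂ] K)) Ω⟫_ℂ).re = p := by
    change (⟪Ω, (p : ℂ) • Ω⟫_ℂ).re = p
    rw [inner_smul_right, inner_self_eq_norm_sq_to_K, hΩ]
    simp
  rw [h2, h3, sq_abs] at h1
  have h0 : 0 ≤ p := (sq_nonneg p).trans h1
  exact ⟨h0, by nlinarith⟩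

theorem ul_ucp {E : C(Y, ℂ) →ₗ[ℂ] (K →L[ℂ] K)} {p : ℝ} (h : UL E p) (hΩ : ‖Ω‖ = 1) : UCP E := by
  refine ⟨fun f => ?_, fun f ξ => ?_, fun ξ => ?_⟩
  · rw [h.star]
    rfl
  · have h1 := h.bes 1 (fun _ => f) ξ
    simpa only [Fin.sum_univ_one] using h1
  · rw [h.one]
    change (⟪ξ, (p : ℂ) • ξ⟫_ℂ).re ≤ _
    rw [inner_smul_right, inner_self_eq_norm_sq_to_K]
    have h2 : (((p : ℂ) * ((‖ξ‖ : ℂ)) ^ 2)).re = p * ‖ξ‖ ^ 2 := by
      norm_cast
    have h3 := (ul_le_one h hΩ).2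
    calc _ = p * ‖ξ‖ ^ 2 := h2
      _ ≤ 1 * ‖ξ‖ ^ 2 := by gcongr
      _ = _ := one_mul _

/-- commuting with `π g` for `g` in a set extends to the generated subgroup -/
theorem comm_closure {S : Set G} {T : K →L[ℂ] K} (h : ∀ g ∈ S, T * π g = π g * T) :
    ∀ g ∈ Subgroup.closure S, T * π g = π g * T := by
  intro g hg
  induction hg using Subgroup.closure_induction with
  | mem x hx => exact h x hx
  | one => rw [map_one, mul_one, one_mul]
  | mul x y _ _ h1 h2 => rw [map_mul, ← mul_assoc, h1, mul_assoc, h2, mul_assoc]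
  | inv x _ h1 =>
    have e1 : π x * π x⁻¹ = 1 := by rw [← map_mul, mul_inv_cancel, map_one]
    have e2 : π x⁻¹ * π x = 1 := by rw [← map_mul, inv_mul_cancel, map_one]
    calc T * π x⁻¹ = (π x⁻¹ * π x) * (T * π x⁻¹) := by rw [e2, one_mul]
      _ = π x⁻¹ * (π x * T) * π x⁻¹ := by simp only [mul_assoc]
      _ = π x⁻¹ * (T * π x) * π x⁻¹ := by rw [h1]
      _ = π x⁻¹ * T * (π x * π x⁻¹) := by simp only [mul_assoc]
      _ = π x⁻¹ * T := by rw [e1, mul_one]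

/-- a covariant limit map which commutes with `π` does not exist -/
theorem no_const (hp : Pic π lam W Ω) {E : C(Y, ℂ) →ₗ[ℂ] (K →L[ℂ] K)} {p : ℝ} (hE : UL E p)
    (hp0 : p ≠ 0) {act : Γ → Y → Y} (hNI : NIS act) (cm : ∀ f, Cm W (E f))
    (cov : Cov act lam E) (hπ : ∀ f g, E f * π g = π g * E f) : False :=
  const_false hNI hp.nΩ hp.inv (ul_ucp hE hp.nΩ) (c := (p : ℂ)) (by exact_mod_cast hp0) hE.one
    cov (fun f w hw => cm f w hw) hπ

/-- **[P-AGR], two maps.** The alternative: equal, or they agree nowhere. -/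
theorem agr_alt (hp : Pic π lam W Ω) {A B : C(Y, ℂ) →ₗ[ℂ] (K →L[ℂ] K)}
    (cmA : ∀ f, Cm W (A f)) (cmB : ∀ f, Cm W (B f)) {act : Γ → Y → Y}
    (hact : ∀ γ, ∀ f : C(Y, ℂ), ∃ f' : C(Y, ℂ), ∀ x, f' (act γ x) = f x)
    (covA : Cov act lam A) (covB : Cov act lam B) {S : Set G} (hS : Moore S)
    (hA : ∀ g ∈ S, ∀ f, A f * π g = π g * A f) (hB : ∀ g ∈ S, ∀ f, B f * π g = π g * B f) :
    (∀ f, A f = B f) ∨ ∀ ζ, (∀ f, A f ζ = B f ζ) → ζ = 0 := by
  have hl1 : ∀ γ, lam γ * lam γ⁻¹ = 1 := fun γ => by rw [← map_mul, mul_inv_cancel, map_one]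
  refine agr_dich (β₁ := fun f => A f) (β₂ := fun f => B f)
    (𝒮 := W ∪ Set.range lam ∪ π '' S) ?_ ?_
  · intro T hT
    exact hp.erg _ hS T (fun w hw => hT w (Or.inl (Or.inl hw)))
      (fun γ => hT _ (Or.inl (Or.inr ⟨γ, rfl⟩))) fun g hg => hT _ (Or.inr ⟨g, hg, rfl⟩)
  · rintro T ((hw | ⟨γ, rfl⟩) | ⟨g, hg, rfl⟩)
    · exact ⟨Nrm.of_comm (fun F => cmA F T hw) fun F => cmB F T hw,
        Nrm.of_comm (fun F => cmA F _ (hp.Wadj T hw)) fun F => cmB F _ (hp.Wadj T hw)⟩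
    · have e : ∀ γ : Γ, Nrm (fun F => A F) (fun F => B F) (lam γ) := by
        intro γ
        choose σ hσ using hact γ⁻¹
        have h1 : lam γ⁻¹ * lam γ = 1 := by rw [← map_mul, inv_mul_cancel, map_one]
        refine nrm_cov' (hl1 γ) h1 (σ := σ) (fun F => ?_) fun F => ?_
        · have := covA γ⁻¹ F (σ F) (hσ F)
          rw [inv_inv] at this
          rw [← this, mul_assoc, mul_assoc, hl1, mul_one]
        · have := covB γ⁻¹ F (σ F) (hσ F)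
          rw [inv_inv] at this
          rw [← this, mul_assoc, mul_assoc, hl1, mul_one]
      refine ⟨e γ, ?_⟩
      rw [hp.adjL]
      exact e γ⁻¹
    · refine ⟨Nrm.of_comm (fun F => hA g hg F) fun F => hB g hg F, ?_⟩
      rw [hp.adjP]
      have hg' : g⁻¹ ∈ Subgroup.closure S := inv_mem (Subgroup.subset_closure hg)
      exact Nrm.of_comm (fun F => comm_closure (fun x hx => hA x hx F) _ hg')
        fun F => comm_closure (fun x hx => hB x hx F) _ hg'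

/-- **[P-AGR], two maps.** `S` = the stabiliser of both vertices, `S₁`, `S₂` the stabilisers. -/
theorem agr_two (hp : Pic π lam W Ω) {A B : C(Y, ℂ) →ₗ[ℂ] (K →L[ℂ] K)} {p : ℝ} (hUA : UL A p)
    (hp0 : p ≠ 0) (cmA : ∀ f, Cm W (A f)) (cmB : ∀ f, Cm W (B f)) {act : Γ → Y → Y}
    (hact : ∀ γ, ∀ f : C(Y, ℂ), ∃ f' : C(Y, ℂ), ∀ x, f' (act γ x) = f x) (hNI : NIS act)
    (covA : Cov act lam A) (covB : Cov act lam B) {S S₁ S₂ : Set G} (hS : Moore S)
    (h1 : S ⊆ S₁) (h2 : S ⊆ S₂) (hA : ∀ g ∈ S₁, ∀ f, A f * π g = π g * A f)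
    (hB : ∀ g ∈ S₂, ∀ f, B f * π g = π g * B f)
    (hgen : Subgroup.closure (S₁ ∪ S₂) = ⊤) : ∀ ζ, (∀ f, A f ζ = B f ζ) → ζ = 0 := by
  refine (agr_alt hp cmA cmB hact covA covB hS (fun g hg => hA g (h1 hg))
    fun g hg => hB g (h2 hg)).resolve_left fun he => ?_
  refine no_const hp hUA hp0 hNI cmA covA fun f g => ?_
  refine comm_closure (S := S₁ ∪ S₂) (fun x hx => ?_) g (by rw [hgen]; exact Subgroup.mem_top g)
  rcases hx with hx | hx
  · exact hA x hx f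
  · rw [he f]
    exact hB x hx f

section fam

variable {H I : Type*} [Group H] [MulAction H I]

theorem comm_of_conj {T U : K →L[ℂ] K} {g : G} (h : π g * T * π g⁻¹ = U) (hTU : U = T) :
    T * π g = π g * T := by
  have e1 : π g⁻¹ * π g = 1 := by rw [← map_mul, inv_mul_cancel, map_one]
  calc T * π g = (π g * T * π g⁻¹) * π g := by rw [h, hTU]
    _ = π g * T * (π g⁻¹ * π g) := by simp only [mul_assoc]
    _ = _ := by rw [e1, mul_one]

/-- **[P-AGR], families.** `H` = the group acting on the source vertices, `ι : H →* G` onto. The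
families may be different (two ultrafilters). -/
theorem agr_fam₂ (hp : Pic π lam W Ω) (ι : H →* G) (hι : Function.Surjective ι)
    {E F : I → (C(Y, ℂ) →ₗ[ℂ] (K →L[ℂ] K))} {p : ℝ} (hE : ∀ X, UL (E X) p)
    (hp0 : p ≠ 0) (cmE : ∀ X f, Cm W (E X f)) (cmF : ∀ X f, Cm W (F X f)) {act : Γ → Y → Y}
    (hact : ∀ γ, ∀ f : C(Y, ℂ), ∃ f' : C(Y, ℂ), ∀ x, f' (act γ x) = f x) (hNI : NIS act)
    (covE : ∀ X, Cov act lam (E X)) (covF : ∀ X, Cov act lam (F X))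
    (pcE : ∀ h X f, π (ι h) * E X f * π (ι h)⁻¹ = E (h • X) f)
    (pcF : ∀ h X f, π (ι h) * F X f * π (ι h)⁻¹ = F (h • X) f) {X X' : I}
    (hS : Moore (ι '' {h | h • X = X ∧ h • X' = X'}))
    (hgen : Subgroup.closure ({h : H | h • X = X} ∪ {h : H | h • X' = X'}) = ⊤) :
    ∀ ζ, (∀ f, E X f ζ = F X' f ζ) → ζ = 0 := by
  refine agr_two hp (hE X) hp0 (cmE X) (cmF X') hact hNI (covE X) (covF X') hS
    (S₁ := ι '' {h | h • X = X}) (S₂ := ι '' {h | h • X' = X'}) (Set.image_mono fun h hh => hh.1)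
    (Set.image_mono fun h hh => hh.2) ?_ ?_ ?_
  · rintro _ ⟨h, hh, rfl⟩ f
    exact comm_of_conj (pcE h X f) (by rw [show h • X = X from hh])
  · rintro _ ⟨h, hh, rfl⟩ f
    exact comm_of_conj (pcF h X' f) (by rw [show h • X' = X' from hh])
  · rw [← Set.image_union, ← MonoidHom.map_closure, hgen]
    exact Subgroup.map_top_of_surjective ι hι

/-- **[P-AGR]** -/
theorem agr_fam (hp : Pic π lam W Ω) (ι : H →* G) (hι : Function.Surjective ι)
    {E : I → (C(Y, ℂ) →ₗ[ℂ] (K →L[ℂ] K))} {p : ℝ} (hE : ∀ X, UL (E X) p)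
    (hp0 : p ≠ 0) (cm : ∀ X f, Cm W (E X f)) {act : Γ → Y → Y}
    (hact : ∀ γ, ∀ f : C(Y, ℂ), ∃ f' : C(Y, ℂ), ∀ x, f' (act γ x) = f x) (hNI : NIS act)
    (cov : ∀ X, Cov act lam (E X))
    (pcov : ∀ h X f, π (ι h) * E X f * π (ι h)⁻¹ = E (h • X) f) {X X' : I}
    (hS : Moore (ι '' {h | h • X = X ∧ h • X' = X'}))
    (hgen : Subgroup.closure ({h : H | h • X = X} ∪ {h : H | h • X' = X'}) = ⊤) :
    ∀ ζ, (∀ f, E X f ζ = E X' f ζ) → ζ = 0 :=
  agr_fam₂ hp ι hι hE hp0 cm cm hact hNI cov cov pcov pcov hS hgen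

/-- covariance in the form of `SN.EFam.cov` -/
theorem cov_of_act {T : Type*} [Group T] [MulAction T Y] [ContinuousConstSMul T Y] {q : Γ → T}
    {E : C(Y, ℂ) →ₗ[ℂ] (K →L[ℂ] K)} (ac : T → C(Y, ℂ) → C(Y, ℂ))
    (hac : ∀ g f x, ac g f x = f (g⁻¹ • x))
    (h : ∀ γ f, lam γ * E f * lam γ⁻¹ = E (ac (q γ) f)) :
    Cov (fun γ y => q γ • y) lam E := by
  intro γ f f' hf
  rw [h]
  congr 1
  ext x
  rw [hac, ← hf]
  simp only [smul_inv_smul]

theorem hact_of_act {T : Type*} [Group T] [MulAction T Y] [ContinuousConstSMul T Y] (q : Γ → T) :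
    ∀ γ, ∀ f : C(Y, ℂ), ∃ f' : C(Y, ℂ), ∀ x, f' (q γ • x) = f x := fun γ f =>
  ⟨⟨fun y => f ((q γ)⁻¹ • y), f.continuous.comp (continuous_const_smul _)⟩, fun x => by
    change f ((q γ)⁻¹ • q γ • x) = f x
    rw [inv_smul_smul]⟩

end fam

end Vale.Agent.P092.H494.PAg
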