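import Mathlib

/-!
P092 (helper494), project Q, block Q-END, part 1: positive and negative parts of a bounded
self-adjoint operator, spectral cut-offs by positive parts only.
-/

set_option linter.all false

open scoped InnerProductSpace ComplexOrder
open Filter Topology ContinuousLinearMap

namespace Vale.Agent.P092.H494

variable {K : Type*} [NormedAddCommGroup K] [InnerProductSpace ℂ K] [CompleteSpace K]

/-- The quadratic form of an operator. -/
noncomputable def qf (T : K →L[ℂ] K) (v : K) : ℝ := (⟪T v, v⟫_ℂ).re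

theorem qf_add (S T : K →L[ℂ] K) (v : K) : qf (S + T) v = qf S v + qf T v := by
  simp [qf, inner_add_left]

theorem qf_sub (S T : K →L[ℂ] K) (v : K) : qf (S - T) v = qf S v - qf T v := by
  simp [qf, inner_sub_left]

theorem qf_smul (c : ℝ) (T : K →L[ℂ] K) (v : K) : qf ((c : ℂ) • T) v = c * qf T v := by
  simp only [qf, ContinuousLinearMap.smul_apply, inner_smul_left]
  simp

theorem qf_one (v : K) : qf (1 : K →L[ℂ] K) v = ‖v‖ ^ 2 := by
  simp only [qf, ContinuousLinearMap.one_apply]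
  rw [inner_self_eq_norm_sq_to_K]
  norm_cast

theorem qf_zero (v : K) : qf (0 : K →L[ℂ] K) v = 0 := by simp [qf]

theorem qf_neg (T : K →L[ℂ] K) (v : K) : qf (-T) v = - qf T v := by
  simp [qf, inner_neg_left]

theorem qf_adj_mul (T : K →L[ℂ] K) (v : K) : qf (adjoint T * T) v = ‖T v‖ ^ 2 := by
  simp only [qf, ContinuousLinearMap.mul_apply, adjoint_inner_left]
  rw [inner_self_eq_norm_sq_to_K]
  norm_cast

theorem qf_le (T : K →L[ℂ] K) (v : K) : |qf T v| ≤ ‖T‖ * ‖v‖ ^ 2 := by
  unfold qf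
  calc |(⟪T v, v⟫_ℂ).re| ≤ ‖⟪T v, v⟫_ℂ‖ := Complex.abs_re_le_norm _
    _ ≤ ‖T v‖ * ‖v‖ := norm_inner_le_norm _ _
    _ ≤ (‖T‖ * ‖v‖) * ‖v‖ := by gcongr; exact T.le_opNorm v
    _ = ‖T‖ * ‖v‖ ^ 2 := by ring

/-- Data of the Jordan decomposition of `C`. -/
structure Jor (C P N : K →L[ℂ] K) : Prop where
  sa : adjoint P = P
  na : adjoint N = N
  pp : ∀ v, 0 ≤ qf P v
  nn : ∀ v, 0 ≤ qf N v
  eq : C = P - N
  pn : P * N = 0
  np : N * P = 0
  comm : ∀ D : K →L[ℂ] K, D * C = C * D → D * P = P * D ∧ D * N = N * D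

theorem exists_jor (C : K →L[ℂ] K) (hC : adjoint C = C) : ∃ P N : K →L[ℂ] K, Jor C P N := by
  have hsa : IsSelfAdjoint C := by
    rw [isSelfAdjoint_iff, star_eq_adjoint]; exact hC
  have h1 : C⁺ - C⁻ = C := CFC.posPart_sub_negPart C hsa
  have hP : (0 : K →L[ℂ] K) ≤ C⁺ := CFC.posPart_nonneg C
  have hN : (0 : K →L[ℂ] K) ≤ C⁻ := CFC.negPart_nonneg C
  have hPp : (C⁺).IsPositive := by
    rw [← ContinuousLinearMap.nonneg_iff_isPositive]; exact hP
  have hNp : (C⁻).IsPositive := by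
    rw [← ContinuousLinearMap.nonneg_iff_isPositive]; exact hN
  refine ⟨C⁺, C⁻, ?_, ?_, ?_, ?_, h1.symm, ?_, ?_, ?_⟩
  · exact hPp.isSelfAdjoint.adjoint_eq
  · exact hNp.isSelfAdjoint.adjoint_eq
  · intro v; exact hPp.re_inner_nonneg_left v
  · intro v; exact hNp.re_inner_nonneg_left v
  · exact CFC.posPart_mul_negPart C
  · exact CFC.negPart_mul_posPart C
  · intro D hD
    have hc : Commute C D := (show Commute D C from hD).symm
    constructor
    · have := (hc.cfcₙ_real (fun x : ℝ => x⁺)).symm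
      rw [CFC.posPart_def]
      exact this
    · have := (hc.cfcₙ_real (fun x : ℝ => x⁻)).symm
      rw [CFC.negPart_def]
      exact this

end Vale.Agent.P092.H494
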