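import Mathlib
import Vale.Agent.P092.H828.EndCore
import Vale.Agent.P092.H494.QEndPos

/-!
P092 (helper494), project Q, block Q-END, part 2: joint eigenvectors.  A commutative `*`-closed
set `𝒮` of bounded operators, an element `T` of its bicommutant almost orthogonal to its
translates under a regular representation, and freeness of the joint eigenvectors give the
monomial vector of `H828.end_core`.
-/

set_option linter.all false

open scoped InnerProductSpace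
open Filter Topology ContinuousLinearMap

namespace Vale.Agent.P092.H494

open Vale.Agent.P092.H828

variable {E : Type*} [NormedAddCommGroup E] [InnerProductSpace ℂ E] [CompleteSpace E]

/-- `T` commutes with everything that commutes with `𝒮`. -/
def Bi (𝒮 : Set (E →L[ℂ] E)) (T : E →L[ℂ] E) : Prop :=
  ∀ D : E →L[ℂ] E, (∀ S ∈ 𝒮, D * S = S * D) → D * T = T * D

/-- A commutative self-adjoint family. -/
structure CFam (𝒮 : Set (E →L[ℂ] E)) : Prop where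
  comm : ∀ S ∈ 𝒮, ∀ S' ∈ 𝒮, S * S' = S' * S
  adj : ∀ S ∈ 𝒮, adjoint S ∈ 𝒮

theorem Bi.of_mem {𝒮 : Set (E →L[ℂ] E)} {S : E →L[ℂ] E} (hS : S ∈ 𝒮) : Bi 𝒮 S :=
  fun D hD => hD S hS

theorem Bi.one {𝒮 : Set (E →L[ℂ] E)} : Bi 𝒮 (1 : E →L[ℂ] E) :=
  fun D hD => by rw [mul_one, one_mul]

theorem Bi.mul {𝒮 : Set (E →L[ℂ] E)} {S T : E →L[ℂ] E} (hS : Bi 𝒮 S) (hT : Bi 𝒮 T) :
    Bi 𝒮 (S * T) := fun D hD => by
  rw [← mul_assoc, hS D hD, mul_assoc, hT D hD, mul_assoc]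

theorem Bi.sub {𝒮 : Set (E →L[ℂ] E)} {S T : E →L[ℂ] E} (hS : Bi 𝒮 S) (hT : Bi 𝒮 T) :
    Bi 𝒮 (S - T) := fun D hD => by
  rw [mul_sub, sub_mul, hS D hD, hT D hD]

theorem Bi.smul {𝒮 : Set (E →L[ℂ] E)} {S : E →L[ℂ] E} (hS : Bi 𝒮 S) (c : ℂ) :
    Bi 𝒮 (c • S) := fun D hD => by
  rw [mul_smul_comm, smul_mul_assoc, hS D hD]

theorem adj_mul (S T : E →L[ℂ] E) : adjoint (S * T) = adjoint T * adjoint S := by
  have := star_mul S T
  simpa [star_eq_adjoint] using this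

theorem Bi.adj {𝒮 : Set (E →L[ℂ] E)} (h : CFam 𝒮) {T : E →L[ℂ] E} (hT : Bi 𝒮 T) :
    Bi 𝒮 (adjoint T) := fun D hD => by
  have h1 : ∀ S ∈ 𝒮, adjoint D * S = S * adjoint D := by
    intro S hS
    have := congrArg adjoint (hD (adjoint S) (h.adj S hS))
    rw [adj_mul, adj_mul, adjoint_adjoint] at this
    exact this.symm
  have h2 := congrArg adjoint (hT _ h1)
  rw [adj_mul, adj_mul, adjoint_adjoint] at h2
  exact h2.symm

theorem Bi.comm {𝒮 : Set (E →L[ℂ] E)} (h : CFam 𝒮) {S T : E →L[ℂ] E} (hS : Bi 𝒮 S)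
    (hT : Bi 𝒮 T) : S * T = T * S :=
  hT S fun S' hS' => (hS S' fun S'' hS'' => h.comm _ hS' _ hS'').symm

theorem Bi.conj {𝒮 : Set (E →L[ℂ] E)} {U U' : E →L[ℂ] E} (h1 : U * U' = 1) (h2 : U' * U = 1)
    (hU : ∀ S ∈ 𝒮, U * S * U' ∈ 𝒮) {T : E →L[ℂ] E} (hT : Bi 𝒮 T) : Bi 𝒮 (U * T * U') :=
  fun D hD => by
  have h3 : ∀ S ∈ 𝒮, (U' * D * U) * S = S * (U' * D * U) := by
    intro S hS
    have h4 := hD _ (hU S hS)
    calc (U' * D * U) * S = U' * (D * (U * S * U')) * U := by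
          simp only [mul_assoc]
          rw [h2, mul_one]
      _ = U' * ((U * S * U') * D) * U := by rw [h4]
      _ = (U' * U) * S * (U' * D * U) := by simp only [mul_assoc]
      _ = S * (U' * D * U) := by rw [h2, one_mul]
  have h5 := hT _ h3
  calc D * (U * T * U') = (U * U') * D * (U * T * U') := by rw [h1, one_mul]
    _ = U * ((U' * D * U) * T) * U' := by simp only [mul_assoc]
    _ = U * (T * (U' * D * U)) * U' := by rw [h5]
    _ = (U * T * U') * D * (U * U') := by simp only [mul_assoc]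
    _ = (U * T * U') * D := by rw [h1, mul_one]

/-- Joint eigenvectors in finite dimensional invariant subspaces. -/
theorem exists_joint {𝒮 : Set (E →L[ℂ] E)} (hc : ∀ S ∈ 𝒮, ∀ S' ∈ 𝒮, S * S' = S' * S) (n : ℕ) :
    ∀ L : Submodule ℂ E, FiniteDimensional ℂ L → Module.finrank ℂ L ≤ n → L ≠ ⊥ →
      (∀ S ∈ 𝒮, ∀ v ∈ L, S v ∈ L) → ∃ w ∈ L, w ≠ 0 ∧ ∀ S ∈ 𝒮, ∃ μ : ℂ, S w = μ • w := by
  induction n with
  | zero =>
    intro L hfd hL hne _
    exact absurd (Submodule.finrank_eq_zero.mp (Nat.le_zero.mp hL)) hne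
  | succ n ih =>
    intro L hfd hL hne hinv
    by_cases hall : ∀ S ∈ 𝒮, ∃ μ : ℂ, ∀ v ∈ L, S v = μ • v
    · obtain ⟨w, hw, hw0⟩ := Submodule.exists_mem_ne_zero_of_ne_bot hne
      refine ⟨w, hw, hw0, fun S hS => ?_⟩
      obtain ⟨μ, hμ⟩ := hall S hS
      exact ⟨μ, hμ w hw⟩
    · push Not at hall
      obtain ⟨S, hS, hno⟩ := hall
      have hmaps : ∀ v ∈ L, (S : E →ₗ[ℂ] E) v ∈ L := fun v hv => hinv S hS v hv
      have : Nontrivial L := (Submodule.nontrivial_iff_ne_bot).mpr hne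
      obtain ⟨μ, hμ⟩ := Module.End.exists_eigenvalue ((S : E →ₗ[ℂ] E).restrict hmaps)
      obtain ⟨v, hv⟩ := hμ.exists_hasEigenvector
      have hv1 : S (v : E) = μ • (v : E) := by
        have := congrArg (fun t : L => (t : E)) hv.apply_eq_smul
        simpa using this
      have hv0 : (v : E) ≠ 0 := fun h => hv.2 (by exact_mod_cast h)
      have hL' : ∀ v, v ∈ L ⊓ LinearMap.ker ((S : E →ₗ[ℂ] E) - μ • LinearMap.id) ↔
          v ∈ L ∧ S v = μ • v := by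
        intro v
        simp [Submodule.mem_inf, LinearMap.mem_ker, sub_eq_zero]
      have hlt : L ⊓ LinearMap.ker ((S : E →ₗ[ℂ] E) - μ • LinearMap.id) < L := by
        refine lt_of_le_of_ne inf_le_left fun h => ?_
        obtain ⟨u, hu, hu1⟩ := hno μ
        exact hu1 (((hL' u).mp (h.symm ▸ hu)).2)
      have hfd' : FiniteDimensional ℂ
          (L ⊓ LinearMap.ker ((S : E →ₗ[ℂ] E) - μ • LinearMap.id) : Submodule ℂ E) :=
        Submodule.finiteDimensional_of_le hlt.le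
      have h1 := Submodule.finrank_lt_finrank_of_lt hlt
      obtain ⟨w, hw, hw0, hw1⟩ := ih _ hfd' (by omega)
        (by
          intro h
          have : (v : E) ∈ (⊥ : Submodule ℂ E) := by
            rw [← h]
            exact (hL' _).mpr ⟨v.2, hv1⟩
          exact hv0 ((Submodule.mem_bot ℂ).mp this))
        (by
          intro S' hS' u hu
          obtain ⟨hu1, hu2⟩ := (hL' u).mp hu
          refine (hL' _).mpr ⟨hinv S' hS' u hu1, ?_⟩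
          have := congrArg (fun T : E →L[ℂ] E => T u) (hc S hS S' hS')
          simp only [ContinuousLinearMap.mul_apply] at this
          rw [this, hu2, map_smul])
      exact ⟨w, ((hL' w).mp hw).1, hw0, hw1⟩

/-- A subspace whose orthonormal families have bounded length is finite dimensional. -/
theorem finite_of_bound (L : Submodule ℂ E) (n : ℕ)
    (h : ∀ (m : ℕ) (e : Fin m → E), Orthonormal ℂ e → (∀ i, e i ∈ L) → m ≤ n) :
    FiniteDimensional ℂ L := by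
  classical
  by_contra hinf
  have h1 : ((n + 1 : ℕ) : Cardinal) ≤ Module.rank ℂ L := by
    by_contra hlt
    rw [not_le] at hlt
    exact hinf (Module.rank_lt_aleph0_iff.mp (hlt.trans (Cardinal.nat_lt_aleph0 _)))
  rw [le_rank_iff_exists_linearIndependent_finset] at h1
  obtain ⟨s, hs, hli⟩ := h1
  have hfr : Module.finrank ℂ (Submodule.span ℂ (s : Set L)) = n + 1 := by
    rw [finrank_span_finset_eq_card hli, hs]
  have hfd : FiniteDimensional ℂ (Submodule.span ℂ (s : Set L)) :=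
    FiniteDimensional.span_finset ℂ s
  let b := stdOrthonormalBasis ℂ (Submodule.span ℂ (s : Set L))
  have hb : Orthonormal ℂ fun i => ((b i : L) : E) := by
    have h2 := b.orthonormal.comp_linearIsometry
      (Submodule.subtypeₗᵢ (Submodule.span ℂ (s : Set L)))
    exact h2.comp_linearIsometry (Submodule.subtypeₗᵢ L)
  have h3 := h _ _ hb (fun i => (b i : L).2)
  omega

section reg

variable {X : Type*} [Group X] {R : X → (E →L[ℂ] E)} {ξ : E}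

theorem parseval (h : Reg R ξ) (v : E) : HasSum (fun x => ‖⟪R x ξ, v⟫_ℂ‖ ^ 2) (‖v‖ ^ 2) := by
  have ho : Orthonormal ℂ fun x => R x ξ := h.toURep.orthonormal h.norm_one h.orth
  have hs : (Submodule.span ℂ (Set.range fun x => R x ξ))ᗮ = ⊥ := by
    rw [Submodule.eq_bot_iff]
    intro η hη
    refine h.total η fun x => ?_
    exact (Submodule.mem_orthogonal _ _).mp hη _ (Submodule.subset_span ⟨x, rfl⟩)
  let b := HilbertBasis.mkOfOrthogonalEqBot ho hs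
  have hb : ∀ x, b x = R x ξ := fun x => by
    simp [b, HilbertBasis.coe_mkOfOrthogonalEqBot]
  have h1 := b.hasSum_inner_mul_inner v v
  have h2 := Complex.reCLM.hasSum h1
  have h3 : (⟪v, v⟫_ℂ).re = ‖v‖ ^ 2 := by
    rw [inner_self_eq_norm_sq_to_K]; norm_cast
  simp only [Complex.reCLM_apply] at h2
  rw [h3] at h2
  have h4 : (fun x => ‖⟪R x ξ, v⟫_ℂ‖ ^ 2) = fun i => (⟪v, b i⟫_ℂ * ⟪b i, v⟫_ℂ).re := by
    funext x
    rw [hb, ← inner_conj_symm v (R x ξ), ← Complex.normSq_eq_conj_mul_self, Complex.ofReal_re,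
      Complex.normSq_eq_norm_sq]
  rw [h4]
  exact h2

/-- The translate of an operator. -/
noncomputable def cj (R : X → (E →L[ℂ] E)) (T : E →L[ℂ] E) (x : X) : E →L[ℂ] E :=
  R x * T * R x⁻¹

theorem R_mul_inv (h : URep R) (x : X) : R x * R x⁻¹ = 1 := by
  rw [← h.mul, mul_inv_cancel, h.one]

theorem R_inv_mul (h : URep R) (x : X) : R x⁻¹ * R x = 1 := by
  rw [← h.mul, inv_mul_cancel, h.one]

theorem cj_mul_cj (h : URep R) (S T : E →L[ℂ] E) (x : X) : cj R S x * cj R T x = cj R (S * T) x := by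
  unfold cj
  calc R x * S * R x⁻¹ * (R x * T * R x⁻¹) = R x * S * (R x⁻¹ * R x) * (T * R x⁻¹) := by
        simp only [mul_assoc]
    _ = R x * (S * T) * R x⁻¹ := by rw [R_inv_mul h, mul_one]; simp only [mul_assoc]

theorem cj_cj (h : URep R) (T : E →L[ℂ] E) (x y : X) : cj R (cj R T y) x = cj R T (x * y) := by
  unfold cj
  rw [h.mul, mul_inv_rev, h.mul]
  simp only [mul_assoc]

theorem cj_zero (x : X) : cj R (0 : E →L[ℂ] E) x = 0 := by simp [cj]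

theorem cj_one (h : URep R) (T : E →L[ℂ] E) : cj R T 1 = T := by
  simp [cj, h.one]

theorem adj_cj (h : URep R) (T : E →L[ℂ] E) (x : X) : adjoint (cj R T x) = cj R (adjoint T) x := by
  unfold cj
  rw [adj_mul, adj_mul, h.adj, h.adj, inv_inv, mul_assoc]

/-- Almost orthogonality. -/
theorem almost_orth [DecidableEq X] (h : URep R) {T : E →L[ℂ] E} {N : Finset X}
    (hN : ∀ x, x ∉ N → (adjoint T * T) * cj R (adjoint T * T) x = 0) (s : Finset X) (ζ : E) :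
    ∑ x ∈ s, ‖T (R x⁻¹ ζ)‖ ^ 2 ≤ (N.card * ‖T‖ ^ 2) * ‖ζ‖ ^ 2 := by
  obtain ⟨f, hf⟩ : ∃ f, f = adjoint T * T := ⟨_, rfl⟩
  rw [← hf] at hN
  have hfa : adjoint f = f := by rw [hf, adj_mul, adjoint_adjoint]
  have hfx : ∀ x y, x⁻¹ * y ∉ N → ⟪cj R f x ζ, cj R f y ζ⟫_ℂ = 0 := by
    intro x y hxy
    have h1 := hN _ hxy
    have h2 : cj R f x * cj R f y = 0 := by
      have h3 := congrArg (fun S => cj R S x) h1
      simp only [cj_zero, ← cj_mul_cj h, cj_cj h, mul_inv_cancel_left] at h3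
      exact h3
    rw [← adjoint_inner_right, adj_cj h, hfa]
    have := congrArg (fun S : E →L[ℂ] E => S ζ) h2
    simp only [ContinuousLinearMap.mul_apply, ContinuousLinearMap.zero_apply] at this
    rw [this, inner_zero_right]
  have hnf : ∀ x, ‖cj R f x ζ‖ ^ 2 ≤ ‖T‖ ^ 2 * ‖T (R x⁻¹ ζ)‖ ^ 2 := by
    intro x
    have h1 : ‖cj R f x ζ‖ = ‖adjoint T (T (R x⁻¹ ζ))‖ := by
      simp only [cj, ContinuousLinearMap.mul_apply, h.norm_map, hf]
    have h2 : ‖adjoint T (T (R x⁻¹ ζ))‖ ≤ ‖T‖ * ‖T (R x⁻¹ ζ)‖ := by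
      have := (adjoint T).le_opNorm (T (R x⁻¹ ζ))
      rwa [LinearIsometryEquiv.norm_map] at this
    rw [h1, ← mul_pow]
    exact pow_le_pow_left₀ (norm_nonneg _) h2 2
  have hin : ∀ x, (⟪cj R f x ζ, ζ⟫_ℂ).re = ‖T (R x⁻¹ ζ)‖ ^ 2 := by
    intro x
    have h1 : ⟪cj R f x ζ, ζ⟫_ℂ = ⟪T (R x⁻¹ ζ), T (R x⁻¹ ζ)⟫_ℂ := by
      simp only [cj, ContinuousLinearMap.mul_apply, hf]
      rw [h.inner_left, adjoint_inner_left]
    rw [h1, inner_self_eq_norm_sq_to_K]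
    norm_cast
  obtain ⟨A, hA⟩ : ∃ A, A = ∑ x ∈ s, ‖T (R x⁻¹ ζ)‖ ^ 2 := ⟨_, rfl⟩
  have hA0 : 0 ≤ A := by rw [hA]; positivity
  have hS1 : (⟪∑ x ∈ s, cj R f x ζ, ζ⟫_ℂ).re = A := by
    rw [sum_inner, Complex.re_sum, hA]
    exact Finset.sum_congr rfl fun x _ => hin x
  have hS2 : ‖∑ x ∈ s, cj R f x ζ‖ ^ 2 ≤ (N.card * ‖T‖ ^ 2) * A := by
    have h1 : ‖∑ x ∈ s, cj R f x ζ‖ ^ 2 =
        ∑ x ∈ s, ∑ y ∈ s, (⟪cj R f x ζ, cj R f y ζ⟫_ℂ).re := by
      have h2 : ‖∑ x ∈ s, cj R f x ζ‖ ^ 2 =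
          (⟪∑ x ∈ s, cj R f x ζ, ∑ x ∈ s, cj R f x ζ⟫_ℂ).re := by
        rw [inner_self_eq_norm_sq_to_K]; norm_cast
      rw [h2, sum_inner, Complex.re_sum]
      refine Finset.sum_congr rfl fun x _ => ?_
      rw [inner_sum, Complex.re_sum]
    have h3 : ∀ x y, (⟪cj R f x ζ, cj R f y ζ⟫_ℂ).re ≤
        (if x⁻¹ * y ∈ N then (‖cj R f x ζ‖ ^ 2 + ‖cj R f y ζ‖ ^ 2) / 2 else 0) := by
      intro x y
      split_ifs with hxy
      · have h4 : (⟪cj R f x ζ, cj R f y ζ⟫_ℂ).re ≤ ‖cj R f x ζ‖ * ‖cj R f y ζ‖ :=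
          (Complex.re_le_norm _).trans (norm_inner_le_norm _ _)
        nlinarith [sq_nonneg (‖cj R f x ζ‖ - ‖cj R f y ζ‖)]
      · rw [hfx x y hxy]; simp
    have h5 : ∀ x ∈ s, ∑ y ∈ s, (if x⁻¹ * y ∈ N then ‖cj R f x ζ‖ ^ 2 else 0) ≤
        N.card * ‖cj R f x ζ‖ ^ 2 := by
      intro x _
      rw [← Finset.sum_filter, Finset.sum_const, nsmul_eq_mul]
      refine mul_le_mul_of_nonneg_right ?_ (by positivity)
      exact_mod_cast Finset.card_le_card_of_injOn (fun y => x⁻¹ * y)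
        (fun y hy => (Finset.mem_filter.mp hy).2) (fun a _ b _ hab => mul_left_cancel hab)
    have h6 : ∀ y ∈ s, ∑ x ∈ s, (if x⁻¹ * y ∈ N then ‖cj R f y ζ‖ ^ 2 else 0) ≤
        N.card * ‖cj R f y ζ‖ ^ 2 := by
      intro y _
      rw [← Finset.sum_filter, Finset.sum_const, nsmul_eq_mul]
      refine mul_le_mul_of_nonneg_right ?_ (by positivity)
      exact_mod_cast Finset.card_le_card_of_injOn (fun x => x⁻¹ * y)
        (fun x hx => (Finset.mem_filter.mp hx).2)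
        (fun a _ b _ hab => inv_injective (mul_right_cancel hab))
    have h7 : ∑ x ∈ s, ∑ y ∈ s,
        (if x⁻¹ * y ∈ N then (‖cj R f x ζ‖ ^ 2 + ‖cj R f y ζ‖ ^ 2) / 2 else 0) =
        (∑ x ∈ s, ∑ y ∈ s, (if x⁻¹ * y ∈ N then ‖cj R f x ζ‖ ^ 2 else 0)) / 2 +
        (∑ y ∈ s, ∑ x ∈ s, (if x⁻¹ * y ∈ N then ‖cj R f y ζ‖ ^ 2 else 0)) / 2 := by
      rw [Finset.sum_comm (s := s) (t := s)
        (f := fun y x => (if x⁻¹ * y ∈ N then ‖cj R f y ζ‖ ^ 2 else 0)), Finset.sum_div,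
        Finset.sum_div, ← Finset.sum_add_distrib]
      refine Finset.sum_congr rfl fun x _ => ?_
      rw [Finset.sum_div, Finset.sum_div, ← Finset.sum_add_distrib]
      refine Finset.sum_congr rfl fun y _ => ?_
      split_ifs <;> ring
    calc ‖∑ x ∈ s, cj R f x ζ‖ ^ 2
        ≤ ∑ x ∈ s, ∑ y ∈ s,
            (if x⁻¹ * y ∈ N then (‖cj R f x ζ‖ ^ 2 + ‖cj R f y ζ‖ ^ 2) / 2 else 0) := by
          rw [h1]
          exact Finset.sum_le_sum fun x _ => Finset.sum_le_sum fun y _ => h3 x y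
      _ ≤ (∑ x ∈ s, N.card * ‖cj R f x ζ‖ ^ 2) / 2 + (∑ y ∈ s, N.card * ‖cj R f y ζ‖ ^ 2) / 2 := by
          rw [h7]
          exact add_le_add (div_le_div_of_nonneg_right (Finset.sum_le_sum h5) (by norm_num))
            (div_le_div_of_nonneg_right (Finset.sum_le_sum h6) (by norm_num))
      _ = ∑ x ∈ s, N.card * ‖cj R f x ζ‖ ^ 2 := by ring
      _ ≤ ∑ x ∈ s, N.card * (‖T‖ ^ 2 * ‖T (R x⁻¹ ζ)‖ ^ 2) :=
          Finset.sum_le_sum fun x _ => mul_le_mul_of_nonneg_left (hnf x) (by positivity)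
      _ = (N.card * ‖T‖ ^ 2) * A := by
          rw [hA, Finset.mul_sum]
          exact Finset.sum_congr rfl fun x _ => by ring
  have h8 : A ≤ ‖∑ x ∈ s, cj R f x ζ‖ * ‖ζ‖ := by
    rw [← hS1]
    exact (Complex.re_le_norm _).trans (norm_inner_le_norm _ _)
  rw [← hA]
  have hB0 : 0 ≤ (N.card : ℝ) * ‖T‖ ^ 2 := by positivity
  rcases hA0.eq_or_lt with h0 | h0
  · rw [← h0]; positivity
  · have h9 : A ^ 2 ≤ ((N.card * ‖T‖ ^ 2) * A) * ‖ζ‖ ^ 2 := by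
      calc A ^ 2 ≤ (‖∑ x ∈ s, cj R f x ζ‖ * ‖ζ‖) ^ 2 := pow_le_pow_left₀ hA0 h8 2
        _ = ‖∑ x ∈ s, cj R f x ζ‖ ^ 2 * ‖ζ‖ ^ 2 := by ring
        _ ≤ ((N.card * ‖T‖ ^ 2) * A) * ‖ζ‖ ^ 2 := mul_le_mul_of_nonneg_right hS2 (by positivity)
    nlinarith

/-- A subspace on which `T` is bounded below is finite dimensional. -/
theorem finite_of_hs (h : Reg R ξ) {T : E →L[ℂ] E} (hTn : adjoint T * T = T * adjoint T)
    {N : Finset X} (hN : ∀ x, x ∉ N → (adjoint T * T) * cj R (adjoint T * T) x = 0)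
    {c : ℝ} (hc : 0 < c) (L : Submodule ℂ E) (hL : ∀ v ∈ L, c * ‖v‖ ^ 2 ≤ ‖T v‖ ^ 2) :
    FiniteDimensional ℂ L := by
  classical
  obtain ⟨B, hB⟩ : ∃ B : ℝ, B = (N.card * ‖T‖ ^ 2) * ‖ξ‖ ^ 2 := ⟨_, rfl⟩
  have hnorm : ∀ v, ‖adjoint T v‖ ^ 2 = ‖T v‖ ^ 2 := by
    intro v
    rw [← qf_adj_mul T v, ← qf_adj_mul (adjoint T) v, adjoint_adjoint, hTn]
  have hsum : ∀ s : Finset X, ∑ x ∈ s, ‖adjoint T (R x ξ)‖ ^ 2 ≤ B := by
    intro s
    have h1 := almost_orth h.toURep hN (s.image fun x => x⁻¹) ξ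
    rw [Finset.sum_image (fun a _ b _ hab => inv_injective hab)] at h1
    simp only [inv_inv] at h1
    rw [hB]
    refine le_trans (le_of_eq ?_) h1
    exact Finset.sum_congr rfl fun x _ => hnorm _
  obtain ⟨n, hn⟩ := exists_nat_gt (B / c)
  refine finite_of_bound L n fun m e he heL => ?_
  have h1 : ∀ j, HasSum (fun x => ‖⟪R x ξ, T (e j)⟫_ℂ‖ ^ 2) (‖T (e j)‖ ^ 2) :=
    fun j => parseval h _
  have h2 : HasSum (fun x => ∑ j, ‖⟪R x ξ, T (e j)⟫_ℂ‖ ^ 2) (∑ j, ‖T (e j)‖ ^ 2) :=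
    hasSum_sum fun j _ => h1 j
  have h3 : ∑ j, ‖T (e j)‖ ^ 2 ≤ B := by
    refine hasSum_le_of_sum_le h2 fun s => ?_
    refine le_trans (Finset.sum_le_sum fun x _ => ?_) (hsum s)
    have h4 := he.sum_inner_products_le (adjoint T (R x ξ)) (s := Finset.univ)
    refine le_trans (le_of_eq ?_) h4
    refine Finset.sum_congr rfl fun j _ => ?_
    rw [← adjoint_inner_left, norm_inner_symm]
  have h5 : (m : ℝ) * c ≤ ∑ j, ‖T (e j)‖ ^ 2 := by
    have h6 : ∀ j : Fin m, c ≤ ‖T (e j)‖ ^ 2 := by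
      intro j
      have := hL _ (heL j)
      rwa [he.1 j, one_pow, mul_one] at this
    calc (m : ℝ) * c = ∑ _j : Fin m, c := by simp
      _ ≤ _ := Finset.sum_le_sum fun j _ => h6 j
  have h7 : (m : ℝ) ≤ B / c := by
    rw [le_div_iff₀ hc]
    exact h5.trans h3
  exact_mod_cast (h7.trans hn.le)

end reg

/-- The eigenspace of the character of `w`. -/
def eig (𝒮 : Set (E →L[ℂ] E)) (w : E) : Submodule ℂ E where
  carrier := {u | ∀ S ∈ 𝒮, ∀ μ : ℂ, S w = μ • w → S u = μ • u}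
  add_mem' := by
    intro a b ha hb S hS μ hμ
    rw [map_add, ha S hS μ hμ, hb S hS μ hμ, smul_add]
  zero_mem' := by
    intro S hS μ hμ
    rw [map_zero, smul_zero]
  smul_mem' := by
    intro c a ha S hS μ hμ
    rw [map_smul, ha S hS μ hμ, smul_comm]

theorem mem_eig {𝒮 : Set (E →L[ℂ] E)} {w u : E} :
    u ∈ eig 𝒮 w ↔ ∀ S ∈ 𝒮, ∀ μ : ℂ, S w = μ • w → S u = μ • u := Iff.rfl

theorem self_mem_eig (𝒮 : Set (E →L[ℂ] E)) (w : E) : w ∈ eig 𝒮 w := fun _ _ _ h => h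

theorem isClosed_eig (𝒮 : Set (E →L[ℂ] E)) (w : E) : IsClosed (eig 𝒮 w : Set E) := by
  have : (eig 𝒮 w : Set E) =
      ⋂ S ∈ 𝒮, ⋂ μ : ℂ, ⋂ (_ : S w = μ • w), {u | S u = μ • u} := by
    ext u
    simp only [SetLike.mem_coe, mem_eig, Set.mem_iInter, Set.mem_setOf_eq]
  rw [this]
  refine isClosed_biInter fun S _ => isClosed_iInter fun μ => isClosed_iInter fun _ => ?_
  exact isClosed_eq S.continuous (continuous_const_smul μ)

instance completeSpace_eig (𝒮 : Set (E →L[ℂ] E)) (w : E) : CompleteSpace (eig 𝒮 w) :=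
  (isClosed_eig 𝒮 w).completeSpace_coe

/-- Joint eigenvectors. -/
def JE (𝒮 : Set (E →L[ℂ] E)) (w : E) : Prop := w ≠ 0 ∧ ∀ S ∈ 𝒮, ∃ μ : ℂ, S w = μ • w

theorem eig_orth {𝒮 : Set (E →L[ℂ] E)} (h : CFam 𝒮) {w w' : E} (hw : JE 𝒮 w) (hw' : JE 𝒮 w')
    (hne : w' ∉ eig 𝒮 w) {u u' : E} (hu : u ∈ eig 𝒮 w) (hu' : u' ∈ eig 𝒮 w') : ⟪u, u'⟫_ℂ = 0 := by
  rw [mem_eig] at hne
  push Not at hne
  obtain ⟨S, hS, μ, hμ, hne'⟩ := hne
  obtain ⟨μ', hμ'⟩ := hw'.2 S hS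
  obtain ⟨ν, hν⟩ := hw.2 _ (h.adj S hS)
  have hmm : μ ≠ μ' := fun h1 => hne' (h1 ▸ hμ')
  have hww : ⟪w, w⟫_ℂ ≠ 0 := inner_self_ne_zero.mpr hw.1
  have h1 : (starRingEnd ℂ) ν = μ := by
    have h2 : ⟪adjoint S w, w⟫_ℂ = ⟪w, S w⟫_ℂ := adjoint_inner_left S w w
    rw [hν, hμ, inner_smul_left, inner_smul_right] at h2
    exact mul_right_cancel₀ hww h2
  have h3 : ⟪adjoint S u, u'⟫_ℂ = ⟪u, S u'⟫_ℂ := adjoint_inner_left S u' u
  rw [hu _ (h.adj S hS) ν hν, hu' S hS μ' hμ', inner_smul_left, inner_smul_right, h1] at h3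
  have h4 : (μ - μ') * ⟪u, u'⟫_ℂ = 0 := by rw [sub_mul, h3, sub_self]
  exact (mul_eq_zero.mp h4).resolve_left (sub_ne_zero.mpr hmm)

theorem eig_eq {𝒮 : Set (E →L[ℂ] E)} {w w' : E} (hw : JE 𝒮 w) (hw0 : w' ≠ 0)
    (hmem : w' ∈ eig 𝒮 w) : eig 𝒮 w' = eig 𝒮 w := by
  ext u
  constructor
  · intro hu S hS μ hμ
    exact hu S hS μ (hmem S hS μ hμ)
  · intro hu S hS μ' hμ'
    obtain ⟨μ, hμ⟩ := hw.2 S hS
    have h1 := hmem S hS μ hμ
    have h2 : μ' = μ := by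
      have h3 : (μ' - μ) • w' = 0 := by rw [sub_smul, ← hμ', ← h1, sub_self]
      exact sub_eq_zero.mp ((smul_eq_zero.mp h3).resolve_right hw0)
    rw [h2]
    exact hu S hS μ hμ

theorem eig_map {𝒮 : Set (E →L[ℂ] E)} {U U' : E →L[ℂ] E} (h1 : U * U' = 1) (h2 : U' * U = 1)
    (hU : ∀ S ∈ 𝒮, U' * S * U ∈ 𝒮) {w u : E} (hu : u ∈ eig 𝒮 w) : U u ∈ eig 𝒮 (U w) := by
  intro S hS μ hμ
  have hUU : ∀ v, U (U' v) = v := fun v => by
    have := congrArg (fun T : E →L[ℂ] E => T v) h1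
    simpa using this
  have hU'U : ∀ v, U' (U v) = v := fun v => by
    have := congrArg (fun T : E →L[ℂ] E => T v) h2
    simpa using this
  have h3 : (U' * S * U) w = μ • w := by
    simp only [ContinuousLinearMap.mul_apply]
    rw [hμ, map_smul, hU'U]
  have h4 := hu _ (hU S hS) μ h3
  simp only [ContinuousLinearMap.mul_apply] at h4
  have h5 := congrArg U h4
  rw [hUU, map_smul] at h5
  exact h5

theorem JE.map {𝒮 : Set (E →L[ℂ] E)} {U U' : E →L[ℂ] E} (h1 : U * U' = 1) (h2 : U' * U = 1)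
    (hU : ∀ S ∈ 𝒮, U' * S * U ∈ 𝒮) {w : E} (hw : JE 𝒮 w) : JE 𝒮 (U w) := by
  have hUU : ∀ v, U (U' v) = v := fun v => by
    have := congrArg (fun T : E →L[ℂ] E => T v) h1
    simpa using this
  have hU'U : ∀ v, U' (U v) = v := fun v => by
    have := congrArg (fun T : E →L[ℂ] E => T v) h2
    simpa using this
  refine ⟨fun h0 => hw.1 ?_, fun S hS => ?_⟩
  · rw [← hU'U w, h0, map_zero]
  · obtain ⟨μ, hμ⟩ := hw.2 _ (hU S hS)
    refine ⟨μ, ?_⟩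
    simp only [ContinuousLinearMap.mul_apply] at hμ
    have h5 := congrArg U hμ
    rw [hUU, map_smul] at h5
    exact h5

/-- The projection on the eigenspace of the character of `w`. -/
noncomputable def pr (𝒮 : Set (E →L[ℂ] E)) (w : E) : E →L[ℂ] E := (eig 𝒮 w).starProjection

theorem pr_mul_self (𝒮 : Set (E →L[ℂ] E)) (w : E) : pr 𝒮 w * pr 𝒮 w = pr 𝒮 w :=
  (eig 𝒮 w).isIdempotentElem_starProjection

theorem adj_pr (𝒮 : Set (E →L[ℂ] E)) (w : E) : adjoint (pr 𝒮 w) = pr 𝒮 w := by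
  have := isSelfAdjoint_starProjection (eig 𝒮 w)
  rw [isSelfAdjoint_iff, star_eq_adjoint] at this
  exact this

theorem pr_self (𝒮 : Set (E →L[ℂ] E)) (w : E) : pr 𝒮 w w = w :=
  Submodule.starProjection_eq_self_iff.mpr (self_mem_eig 𝒮 w)

theorem pr_mem (𝒮 : Set (E →L[ℂ] E)) (w u : E) : pr 𝒮 w u ∈ eig 𝒮 w :=
  Submodule.starProjection_apply_mem _ _

theorem pr_mul_pr_zero {𝒮 : Set (E →L[ℂ] E)} (h : CFam 𝒮) {w w' : E} (hw : JE 𝒮 w)
    (hw' : JE 𝒮 w') (hne : w' ∉ eig 𝒮 w) : pr 𝒮 w * pr 𝒮 w' = 0 := by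
  ext u
  simp only [ContinuousLinearMap.mul_apply, ContinuousLinearMap.zero_apply]
  rw [← inner_self_eq_zero (𝕜 := ℂ)]
  have h1 : ⟪pr 𝒮 w (pr 𝒮 w' u), pr 𝒮 w (pr 𝒮 w' u)⟫_ℂ =
      ⟪pr 𝒮 w (pr 𝒮 w (pr 𝒮 w' u)), pr 𝒮 w' u⟫_ℂ := by
    conv_lhs => rw [← adj_pr 𝒮 w, adjoint_inner_right]
    simp only [adj_pr]
  rw [h1]
  exact eig_orth h hw hw' hne (pr_mem _ _ _) (pr_mem _ _ _)

theorem pr_comm {𝒮 : Set (E →L[ℂ] E)} (h : CFam 𝒮) {w w' : E} (hw : JE 𝒮 w)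
    (hw' : JE 𝒮 w') : pr 𝒮 w * pr 𝒮 w' = pr 𝒮 w' * pr 𝒮 w := by
  by_cases hm : w' ∈ eig 𝒮 w
  · unfold pr
    simp only [eig_eq hw hw'.1 hm]
  · rw [pr_mul_pr_zero h hw hw' hm]
    have h1 := congrArg adjoint (pr_mul_pr_zero h hw hw' hm)
    rw [adj_mul, adj_pr, adj_pr, map_zero] at h1
    exact h1.symm

theorem pr_conj {𝒮 : Set (E →L[ℂ] E)} {U U' : E →L[ℂ] E} (h1 : U * U' = 1) (h2 : U' * U = 1)
    (ha : adjoint U = U') (hU : ∀ S ∈ 𝒮, U * S * U' ∈ 𝒮) (hU' : ∀ S ∈ 𝒮, U' * S * U ∈ 𝒮)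
    (w : E) : U * pr 𝒮 w * U' = pr 𝒮 (U w) := by
  have hUU : ∀ v, U (U' v) = v := fun v => by
    have := congrArg (fun T : E →L[ℂ] E => T v) h1
    simpa using this
  have hU'U : ∀ v, U' (U v) = v := fun v => by
    have := congrArg (fun T : E →L[ℂ] E => T v) h2
    simpa using this
  ext z
  symm
  refine Submodule.eq_starProjection_of_mem_of_inner_eq_zero ?_ ?_
  · simp only [ContinuousLinearMap.mul_apply]
    exact eig_map h1 h2 hU' (pr_mem _ _ _)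
  · intro y hy
    have hy' : U' y ∈ eig 𝒮 w := by
      have := eig_map h2 h1 hU hy
      rwa [hU'U] at this
    have h3 : ⟪U' z - pr 𝒮 w (U' z), U' y⟫_ℂ = 0 :=
      Submodule.starProjection_inner_eq_zero _ _ hy'
    simp only [ContinuousLinearMap.mul_apply]
    have h4 : z - U (pr 𝒮 w (U' z)) = U (U' z - pr 𝒮 w (U' z)) := by
      rw [map_sub, hUU]
    rw [h4, ← adjoint_inner_right, ha]
    exact h3

section core

variable {X : Type*} [Group X] {R : X → (E →L[ℂ] E)} {ξ : E}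

/-- Existence of a joint eigenvector from an almost orthogonal element of the bicommutant. -/
theorem exists_JE (h : Reg R ξ) {𝒮 : Set (E →L[ℂ] E)} (h𝒮 : CFam 𝒮)
    (hR : ∀ x, ∀ S ∈ 𝒮, R x * S * R x⁻¹ ∈ 𝒮) {T : E →L[ℂ] E} (hT : Bi 𝒮 T) (hT0 : T ≠ 0)
    (hN : {x | T * cj R T x ≠ 0}.Finite) : ∃ w, JE 𝒮 w := by
  classical
  have hTa := hT.adj h𝒮
  have hf : Bi 𝒮 (adjoint T * T) := hTa.mul hT
  have hbc : ∀ {S : E →L[ℂ] E}, Bi 𝒮 S → ∀ x, Bi 𝒮 (cj R S x) := by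
    intro S hS x
    exact hS.conj (R_mul_inv h.toURep x) (R_inv_mul h.toURep x) (hR x)
  have hN' : ∀ x, x ∉ hN.toFinset → (adjoint T * T) * cj R (adjoint T * T) x = 0 := by
    intro x hx
    have h1 : T * cj R T x = 0 := by
      by_contra h0
      exact hx (by simpa using h0)
    rw [← cj_mul_cj h.toURep]
    have h2 : T * cj R (adjoint T) x = cj R (adjoint T) x * T := Bi.comm h𝒮 hT (hbc hTa x)
    calc adjoint T * T * (cj R (adjoint T) x * cj R T x)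
        = adjoint T * (T * cj R (adjoint T) x) * cj R T x := by simp only [mul_assoc]
      _ = adjoint T * cj R (adjoint T) x * (T * cj R T x) := by rw [h2]; simp only [mul_assoc]
      _ = 0 := by rw [h1, mul_zero]
  obtain ⟨v, hv⟩ : ∃ v, T v ≠ 0 := by
    by_contra hn
    push Not at hn
    exact hT0 (by ext v; exact hn v)
  have hv0 : v ≠ 0 := fun h0 => hv (by rw [h0, map_zero])
  have hvn : 0 < ‖v‖ ^ 2 := by positivity
  have hTv : 0 < ‖T v‖ ^ 2 := by positivity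
  obtain ⟨c, hc⟩ : ∃ c, c = ‖T v‖ ^ 2 / (2 * ‖v‖ ^ 2) := ⟨_, rfl⟩
  have hc0 : 0 < c := by rw [hc]; positivity
  have hcv : c * ‖v‖ ^ 2 < ‖T v‖ ^ 2 := by
    rw [hc]
    field_simp
    linarith
  obtain ⟨C, hC⟩ : ∃ C : E →L[ℂ] E, C = adjoint T * T - (c : ℂ) • 1 := ⟨_, rfl⟩
  have hCa : adjoint C = C := by
    rw [hC, map_sub, adj_mul, adjoint_adjoint, LinearIsometryEquiv.map_smulₛₗ]
    simp [← star_eq_adjoint]
  obtain ⟨P, N, hJ⟩ := exists_jor C hCa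
  have hCB : Bi 𝒮 C := by
    rw [hC]; exact hf.sub (Bi.one.smul _)
  have hNB : Bi 𝒮 N := fun D hD => (hJ.comm D (hCB D hD)).2
  have hPB : Bi 𝒮 P := fun D hD => (hJ.comm D (hCB D hD)).1
  have hqC : ∀ u, qf C u = ‖T u‖ ^ 2 - c * ‖u‖ ^ 2 := by
    intro u
    rw [hC, qf_sub, qf_adj_mul, qf_smul, qf_one]
  -- the invariant subspace
  obtain ⟨L, hL⟩ : ∃ L : Submodule ℂ E, L = LinearMap.ker (N : E →ₗ[ℂ] E) := ⟨_, rfl⟩
  have hLm : ∀ u, u ∈ L ↔ N u = 0 := by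
    intro u; rw [hL]; simp [LinearMap.mem_ker]
  have hLT : ∀ u ∈ L, c * ‖u‖ ^ 2 ≤ ‖T u‖ ^ 2 := by
    intro u hu
    have h1 : qf C u = qf P u := by
      rw [hJ.eq, qf_sub]
      have : qf N u = 0 := by simp [qf, (hLm u).mp hu]
      rw [this, sub_zero]
    have h2 := hJ.pp u
    have h3 := hqC u
    linarith
  have hPv : P v ≠ 0 := by
    intro h0
    have h1 : qf C v = - qf N v := by
      rw [hJ.eq, qf_sub]
      have : qf P v = 0 := by simp [qf, h0]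
      rw [this, zero_sub]
    have h2 := hJ.nn v
    have h3 := hqC v
    linarith
  have hLne : L ≠ ⊥ := by
    intro hb
    have : P v ∈ L := by
      rw [hLm]
      have := congrArg (fun S : E →L[ℂ] E => S v) hJ.np
      simpa using this
    rw [hb] at this
    exact hPv ((Submodule.mem_bot ℂ).mp this)
  have hLinv : ∀ S ∈ 𝒮, ∀ u ∈ L, S u ∈ L := by
    intro S hS u hu
    rw [hLm] at hu ⊢
    have h1 : S * N = N * S := hNB S fun S' hS' => h𝒮.comm _ hS _ hS'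
    have := congrArg (fun S : E →L[ℂ] E => S u) h1
    simp only [ContinuousLinearMap.mul_apply] at this
    rw [← this, hu, map_zero]
  have hfd : FiniteDimensional ℂ L :=
    finite_of_hs h (Bi.comm h𝒮 hTa hT) hN' hc0 L hLT
  obtain ⟨w, _, hw0, hw⟩ := exists_joint h𝒮.comm _ L hfd le_rfl hLne hLinv
  exact ⟨w, hw0, hw⟩

/-- **Q-END, core.** -/
theorem core {Γ : Type*} [Group Γ] (h : Reg R ξ) {V : Γ → (E →L[ℂ] E)} (hV : URep V)
    (hVR : ∀ g x, V g * R x = R x * V g) {𝒮 : Set (E →L[ℂ] E)} (h𝒮 : CFam 𝒮)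
    (hR : ∀ x, ∀ S ∈ 𝒮, R x * S * R x⁻¹ ∈ 𝒮) (hVS : ∀ g, ∀ S ∈ 𝒮, V g * S * V g⁻¹ ∈ 𝒮)
    (hfree : ∀ w, JE 𝒮 w → ∀ x, R x w ∈ eig 𝒮 w → x = 1)
    {T : E →L[ℂ] E} (hT : Bi 𝒮 T) (hT0 : T ≠ 0) (hN : {x | T * cj R T x ≠ 0}.Finite) :
    ∃ (w : E) (δ : Γ →* X) (χ : Γ →* ℂ), Reg R w ∧ JE 𝒮 w ∧
      (∀ g, ‖χ g‖ = 1) ∧ ∀ g, V g w = χ g • R (δ g)⁻¹ w := by
  obtain ⟨w₀, hw₀⟩ := exists_JE h h𝒮 hR hT hT0 hN
  have hR1 := R_mul_inv (R := R) h.toURep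
  have hR2 := R_inv_mul (R := R) h.toURep
  have hV1 := R_mul_inv (R := V) hV
  have hV2 := R_inv_mul (R := V) hV
  have hR' : ∀ x, ∀ S ∈ 𝒮, R x⁻¹ * S * R x ∈ 𝒮 := fun x S hS => by
    have := hR x⁻¹ S hS
    rwa [inv_inv] at this
  have hV' : ∀ x, ∀ S ∈ 𝒮, V x⁻¹ * S * V x ∈ 𝒮 := fun x S hS => by
    have := hVS x⁻¹ S hS
    rwa [inv_inv] at this
  have hRw : ∀ x, JE 𝒮 (R x w₀) := fun x => hw₀.map (hR1 x) (hR2 x) (hR' x)
  have hVw : ∀ g, JE 𝒮 (V g w₀) := fun g => hw₀.map (hV1 g) (hV2 g) (hV' g)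
  have hRp : ∀ x, R x * pr 𝒮 w₀ * R x⁻¹ = pr 𝒮 (R x w₀) := fun x =>
    pr_conj (hR1 x) (hR2 x) (h.adj x) (hR x) (hR' x) w₀
  have hVp : ∀ g, V g * pr 𝒮 w₀ * V g⁻¹ = pr 𝒮 (V g w₀) := fun g =>
    pr_conj (hV1 g) (hV2 g) (hV.adj g) (hVS g) (hV' g) w₀
  obtain ⟨w, δ, χ, h1, h2, h3, h4⟩ := end_core h hV hVR (F := pr 𝒮 w₀) (pr_mul_self _ _)
    (adj_pr _ _)
    (by
      intro h0
      have := pr_self 𝒮 w₀
      rw [h0] at this
      exact hw₀.1 (by simpa using this.symm))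
    (by
      intro x hx
      rw [hRp]
      exact pr_mul_pr_zero h𝒮 hw₀ (hRw x) fun hm => hx (hfree w₀ hw₀ x hm))
    (by
      intro g x
      rw [hRp, hVp]
      exact pr_comm h𝒮 (hVw g) (hRw x))
  refine ⟨w, δ, χ, h1, ⟨?_, ?_⟩, h3, h4⟩
  · intro h0
    have := h1.norm_one
    rw [h0, norm_zero] at this
    exact zero_ne_one this
  · intro S hS
    obtain ⟨μ, hμ⟩ := hw₀.2 S hS
    have : w ∈ eig 𝒮 w₀ := by rw [← h2]; exact pr_mem _ _ _
    exact ⟨μ, this S hS μ hμ⟩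

end core

end Vale.Agent.P092.H494
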