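import Mathlib
import Vale.Agent.P092.H494.QEndFin

/-!
P092 (helper494), project Q, block Q-END, part 3: localisers.  From one field of commuting
positive operators with a uniform integral one gets operators of the bicommutant which are
orthogonal to all their translates outside a compact set.
-/

set_option linter.all false

open scoped InnerProductSpace Pointwise
open Filter Topology ContinuousLinearMap MeasureTheory

namespace Vale.Agent.P092.H494

variable {E : Type*} [NormedAddCommGroup E] [InnerProductSpace ℂ E] [CompleteSpace E]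

section integral

variable {Y : Type*} [MeasurableSpace Y] {ν : Measure Y}

theorem qf_integral {A : Y → (E →L[ℂ] E)} (hA : Integrable A ν) (u : E) :
    qf (∫ x, A x ∂ν) u = ∫ x, qf (A x) u ∂ν := by
  have h1 := ContinuousLinearMap.integral_comp_comm
    (Complex.reCLM ∘L (((innerSL ℂ u) ∘L (ContinuousLinearMap.apply ℂ E u)).restrictScalars ℝ)) hA
  have h2 : ∀ T : E →L[ℂ] E,
      (Complex.reCLM ∘L (((innerSL ℂ u) ∘L (ContinuousLinearMap.apply ℂ E u)).restrictScalars ℝ)) T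
        = qf T u := by
    intro T
    simp only [ContinuousLinearMap.comp_apply, ContinuousLinearMap.coe_restrictScalars',
      ContinuousLinearMap.apply_apply, innerSL_apply_apply, Complex.reCLM_apply, qf]
    rw [← inner_conj_symm (T u) u, Complex.conj_re]
  simp only [h2] at h1
  exact h1.symm

theorem comm_integral {A : Y → (E →L[ℂ] E)} (hA : Integrable A ν) {D : E →L[ℂ] E}
    (h : ∀ x, D * A x = A x * D) : D * (∫ x, A x ∂ν) = (∫ x, A x ∂ν) * D := by
  have h1 := ContinuousLinearMap.integral_comp_comm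
    (ContinuousLinearMap.mul ℂ (E →L[ℂ] E) D - (ContinuousLinearMap.mul ℂ (E →L[ℂ] E)).flip D) hA
  have h2 : ∀ T : E →L[ℂ] E,
      (ContinuousLinearMap.mul ℂ (E →L[ℂ] E) D - (ContinuousLinearMap.mul ℂ (E →L[ℂ] E)).flip D) T
        = D * T - T * D := by
    intro T
    simp
  simp only [h2] at h1
  have h3 : (fun x => D * A x - A x * D) = fun _ => 0 := by
    funext x; rw [h x, sub_self]
  rw [h3, integral_zero] at h1
  exact (sub_eq_zero.mp h1.symm)

theorem adj_integral {A : Y → (E →L[ℂ] E)} (hA : Integrable A ν)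
    (h : ∀ x, adjoint (A x) = A x) : adjoint (∫ x, A x ∂ν) = ∫ x, A x ∂ν := by
  refine (ContinuousLinearMap.eq_adjoint_iff _ _).mpr ?_ |>.symm
  intro u w
  have hi : ∀ y : E, Integrable (fun x => A x y) ν := fun y =>
    (ContinuousLinearMap.apply ℂ E y).integrable_comp hA
  rw [ContinuousLinearMap.integral_apply hA, ContinuousLinearMap.integral_apply hA,
    ← integral_inner (hi w), ← inner_conj_symm, ← integral_inner (hi u), ← integral_conj]
  refine integral_congr_ae (Eventually.of_forall fun x => ?_)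
  simp only
  rw [inner_conj_symm, ← adjoint_inner_right, h]

end integral

variable {G : Type*} [Group G] [TopologicalSpace G] [IsTopologicalGroup G] [LocallyCompactSpace G]
  [T2Space G] [SigmaCompactSpace G] [MeasurableSpace G] [BorelSpace G] {μ : Measure G}
  [μ.IsHaarMeasure]

/-- A density: positive operators `A x` with integral `c`. -/
structure Den (μ : Measure G) (A : G → (E →L[ℂ] E)) (c : ℝ) : Prop where
  cont : Continuous A
  adj : ∀ x, adjoint (A x) = A x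
  pos : ∀ x ζ, 0 ≤ qf (A x) ζ
  int : ∀ ζ, Integrable (fun x => qf (A x) ζ) μ
  tot : ∀ ζ, ∫ x, qf (A x) ζ ∂μ = c * ‖ζ‖ ^ 2
  unif : ∀ ε > 0, ∃ U ∈ 𝓝 (1 : G), ∀ y ∈ U, ∀ x, ‖A (x * y) - A x‖ ≤ ε

/-- **Localisers.** -/
theorem Den.exists_loc {A : G → (E →L[ℂ] E)} {c : ℝ} (hD : Den μ A c) {𝒮 : Set (E →L[ℂ] E)}
    (h𝒮 : CFam 𝒮) (hAB : ∀ x, Bi 𝒮 (A x)) {v : E} (hv : 0 < qf (A 1) v) :
    ∃ T : E →L[ℂ] E, Bi 𝒮 T ∧ T v ≠ 0 ∧ ∃ C : Set G, IsCompact C ∧
      ∀ (U U' : E →L[ℂ] E) (z : G), U * U' = 1 → U' * U = 1 → adjoint U = U' →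
        (∀ S ∈ 𝒮, U * S * U' ∈ 𝒮) → U * A 1 * U' = A z → z ∉ C → T * (U * T * U') = 0 := by
  have hv0 : v ≠ 0 := by
    intro h0; rw [h0] at hv; simp [qf] at hv
  have hvn : 0 < ‖v‖ ^ 2 := by positivity
  -- the level
  obtain ⟨s, hs⟩ : ∃ s, s = qf (A 1) v / (2 * ‖v‖ ^ 2) := ⟨_, rfl⟩
  have hs0 : 0 < s := by rw [hs]; positivity
  have hsv : s * ‖v‖ ^ 2 < qf (A 1) v := by
    rw [hs]; field_simp; linarith
  have hsa : ∀ (t : ℝ), adjoint ((t : ℂ) • (1 : E →L[ℂ] E)) = (t : ℂ) • 1 := by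
    intro t
    rw [LinearIsometryEquiv.map_smulₛₗ]
    simp [← star_eq_adjoint]
  obtain ⟨P₁, N₁, hJ₁⟩ := exists_jor (A 1 - (s : ℂ) • 1) (by rw [map_sub, hD.adj, hsa])
  have hB₁ : Bi 𝒮 (A 1 - (s : ℂ) • 1) := (hAB 1).sub (Bi.one.smul _)
  have hP₁B : Bi 𝒮 P₁ := fun D hD' => (hJ₁.comm D (hB₁ D hD')).1
  have hN₁B : Bi 𝒮 N₁ := fun D hD' => (hJ₁.comm D (hB₁ D hD')).2
  have hu0 : P₁ v ≠ 0 := by
    intro h0
    have h1 : qf (A 1 - (s : ℂ) • 1) v = - qf N₁ v := by
      rw [hJ₁.eq, qf_sub]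
      have : qf P₁ v = 0 := by simp [qf, h0]
      rw [this, zero_sub]
    rw [qf_sub, qf_smul, qf_one] at h1
    have := hJ₁.nn v
    linarith
  obtain ⟨u, hu⟩ : ∃ u, u = P₁ v := ⟨_, rfl⟩
  have hun : 0 < ‖u‖ ^ 2 := by
    have : u ≠ 0 := by rw [hu]; exact hu0
    positivity
  -- the neighbourhood
  obtain ⟨U₀, hU₀, hU₀'⟩ := hD.unif (s / 2) (by positivity)
  obtain ⟨W, hW, hWU, hWc⟩ := local_compact_nhds hU₀
  have hWpos : 0 < μ W := MeasureTheory.Measure.measure_pos_of_mem_nhds μ hW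
  have hWfin : μ W < ⊤ := hWc.measure_lt_top
  obtain ⟨m, hm⟩ : ∃ m, m = μ.real W := ⟨_, rfl⟩
  have hm0 : 0 < m := by
    rw [hm, Measure.real]; exact ENNReal.toReal_pos hWpos.ne' hWfin.ne
  obtain ⟨ε, hε⟩ : ∃ ε, ε = m * s / 4 := ⟨_, rfl⟩
  have hε0 : 0 < ε := by rw [hε]; positivity
  -- the compact set
  obtain ⟨F, hFc, hF⟩ : ∃ F : Set G, IsCompact F ∧
      c * ‖u‖ ^ 2 - ∫ x in F, qf (A x) u ∂μ < ε * ‖u‖ ^ 2 := by
    have hK := CompactExhaustion.choice G
    have h1 : Tendsto (fun n => ∫ x in hK n, qf (A x) u ∂μ) atTop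
        (𝓝 (∫ x in ⋃ n, hK n, qf (A x) u ∂μ)) :=
      tendsto_setIntegral_of_monotone (fun n => (hK.isCompact n).measurableSet)
        hK.subset (hD.int u).integrableOn
    rw [hK.iUnion_eq, setIntegral_univ, hD.tot] at h1
    have h2 : ∀ᶠ n in atTop, c * ‖u‖ ^ 2 - ε * ‖u‖ ^ 2 < ∫ x in hK n, qf (A x) u ∂μ :=
      h1.eventually_const_lt (by nlinarith)
    obtain ⟨n, hn⟩ := h2.exists
    exact ⟨hK n, hK.isCompact n, by linarith⟩
  have hAF : Integrable A (μ.restrict F) := hD.cont.continuousOn.integrableOn_compact hFc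
  obtain ⟨B, hB⟩ : ∃ B, B = ∫ x in F, A x ∂μ := ⟨_, rfl⟩
  have hBa : adjoint B = B := by rw [hB]; exact adj_integral hAF hD.adj
  have hBq : ∀ ζ, qf B ζ = ∫ x in F, qf (A x) ζ ∂μ := fun ζ => by rw [hB]; exact qf_integral hAF ζ
  have hBB : Bi 𝒮 B := fun D hD' => by
    rw [hB]; exact comm_integral hAF fun x => hAB x D hD'
  -- `C₂ = ε - (c - B)`
  obtain ⟨C₂, hC₂⟩ : ∃ C₂ : E →L[ℂ] E, C₂ = B - ((c - ε : ℝ) : ℂ) • 1 := ⟨_, rfl⟩
  have hC₂a : adjoint C₂ = C₂ := by rw [hC₂, map_sub, hBa, hsa]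
  have hC₂B : Bi 𝒮 C₂ := by rw [hC₂]; exact hBB.sub (Bi.one.smul _)
  obtain ⟨P₂, N₂, hJ₂⟩ := exists_jor C₂ hC₂a
  have hP₂B : Bi 𝒮 P₂ := fun D hD' => (hJ₂.comm D (hC₂B D hD')).1
  have hN₂B : Bi 𝒮 N₂ := fun D hD' => (hJ₂.comm D (hC₂B D hD')).2
  have hqC₂ : ∀ ζ, qf C₂ ζ = (∫ x in F, qf (A x) ζ ∂μ) - (c - ε) * ‖ζ‖ ^ 2 := by
    intro ζ
    rw [hC₂, qf_sub, qf_smul, qf_one, hBq]
  have hPu : P₂ u ≠ 0 := by
    intro h0
    have h1 : qf C₂ u = - qf N₂ u := by
      rw [hJ₂.eq, qf_sub]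
      have : qf P₂ u = 0 := by simp [qf, h0]
      rw [this, zero_sub]
    rw [hqC₂] at h1
    have := hJ₂.nn u
    nlinarith
  refine ⟨P₂ * P₁, hP₂B.mul hP₁B, ?_, F * W⁻¹, hFc.mul hWc.inv, ?_⟩
  · rw [ContinuousLinearMap.mul_apply, ← hu]; exact hPu
  intro U U' z h1 h2 ha hU hz hzC
  have hUU : ∀ v, U (U' v) = v := fun v => by
    have := congrArg (fun T : E →L[ℂ] E => T v) h1
    simpa using this
  have hU'U : ∀ v, U' (U v) = v := fun v => by
    have := congrArg (fun T : E →L[ℂ] E => T v) h2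
    simpa using this
  have hcB : ∀ {S : E →L[ℂ] E}, Bi 𝒮 S → Bi 𝒮 (U * S * U') := fun hS => hS.conj h1 h2 hU
  -- the main point
  have hmain : P₂ * (U * P₁ * U') = 0 := by
    ext ζ
    obtain ⟨η, hη⟩ : ∃ η, η = P₂ ((U * P₁ * U') ζ) := ⟨_, rfl⟩
    have hη' : η = (U * P₁ * U') (P₂ ζ) := by
      rw [hη]
      have := congrArg (fun T : E →L[ℂ] E => T ζ) (Bi.comm h𝒮 hP₂B (hcB hP₁B))
      simpa using this
    -- lower bound for `A z`
    have hlow : s * ‖η‖ ^ 2 ≤ qf (A z) η := by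
      have h3 : U * N₁ * U' * (U * P₁ * U') = 0 := by
        calc U * N₁ * U' * (U * P₁ * U') = U * N₁ * (U' * U) * (P₁ * U') := by
              simp only [mul_assoc]
          _ = U * (N₁ * P₁) * U' := by rw [h2, mul_one]; simp only [mul_assoc]
          _ = 0 := by rw [hJ₁.np]; simp
      have h4 : (U * N₁ * U') η = 0 := by
        rw [hη']
        have := congrArg (fun T : E →L[ℂ] E => T (P₂ ζ)) h3
        simpa using this
      have h5 : A z - (s : ℂ) • 1 = U * P₁ * U' - U * N₁ * U' := by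
        rw [← hz]
        calc U * A 1 * U' - (s : ℂ) • 1 = U * (A 1 - (s : ℂ) • 1) * U' := by
              rw [mul_sub, sub_mul, mul_smul_comm, mul_one, smul_mul_assoc, h1]
          _ = _ := by rw [hJ₁.eq, mul_sub, sub_mul]
      have h6 : qf (A z - (s : ℂ) • 1) η = qf P₁ (U' η) := by
        rw [h5, qf_sub]
        have h7 : qf (U * N₁ * U') η = 0 := by unfold qf; rw [h4, inner_zero_left]; rfl
        rw [h7, sub_zero]
        unfold qf
        simp only [ContinuousLinearMap.mul_apply]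
        rw [← adjoint_inner_right, ha]
      rw [qf_sub, qf_smul, qf_one] at h6
      have h8 := hJ₁.pp (U' η)
      linarith
    -- upper bound for `c - B`
    have hup : (c - ε) * ‖η‖ ^ 2 ≤ ∫ x in F, qf (A x) η ∂μ := by
      have h3 : N₂ η = 0 := by
        rw [hη]
        have := congrArg (fun T : E →L[ℂ] E => T ((U * P₁ * U') ζ)) hJ₂.np
        simpa using this
      have h4 : qf C₂ η = qf P₂ η := by
        rw [hJ₂.eq, qf_sub]
        have : qf N₂ η = 0 := by simp [qf, h3]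
        rw [this, sub_zero]
      rw [hqC₂] at h4
      have := hJ₂.pp η
      linarith
    -- the translate of `W`
    have hzW : Disjoint F (z • W) := by
      rw [Set.disjoint_left]
      rintro f hf ⟨w, hw, rfl⟩
      refine hzC ?_
      refine ⟨z • w, hf, w⁻¹, Set.inv_mem_inv.mpr hw, ?_⟩
      simp
    have hWm : MeasurableSet (z • W) := (hWc.smul z).measurableSet
    have hFm : MeasurableSet F := hFc.measurableSet
    have h9 : m * (s / 2) * ‖η‖ ^ 2 ≤ ∫ x in z • W, qf (A x) η ∂μ := by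
      have h10 : μ.real (z • W) = m := by
        rw [hm, Measure.real, Measure.real, measure_smul]
      have h11 : ∫ _x in z • W, (s / 2) * ‖η‖ ^ 2 ∂μ = m * (s / 2) * ‖η‖ ^ 2 := by
        rw [setIntegral_const, h10, smul_eq_mul, mul_assoc]
      rw [← h11]
      refine setIntegral_mono_on ?_ (hD.int η).integrableOn hWm ?_
      · refine integrableOn_const ?_
        rw [measure_smul]; exact hWfin.ne
      · rintro x ⟨w, hw, rfl⟩
        have h12 := hU₀' w (hWU hw) z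
        have h13 : |qf (A (z * w) - A z) η| ≤ (s / 2) * ‖η‖ ^ 2 :=
          (qf_le _ _).trans (mul_le_mul_of_nonneg_right h12 (by positivity))
        rw [qf_sub] at h13
        have h14 := (abs_le.mp h13).1
        change (s / 2) * ‖η‖ ^ 2 ≤ qf (A (z * w)) η
        linarith
    have h15 : ∫ x in F, qf (A x) η ∂μ + ∫ x in z • W, qf (A x) η ∂μ ≤ c * ‖η‖ ^ 2 := by
      rw [← setIntegral_union hzW hWm (hD.int η).integrableOn (hD.int η).integrableOn, ← hD.tot η]
      exact setIntegral_le_integral (hD.int η) (Eventually.of_forall fun x => hD.pos x η)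
    have h16 : η = 0 := by
      by_contra hne
      have : 0 < ‖η‖ ^ 2 := by positivity
      have h17 : m * (s / 2) * ‖η‖ ^ 2 ≤ ε * ‖η‖ ^ 2 := by nlinarith
      have h18 : m * (s / 2) ≤ ε := le_of_mul_le_mul_right h17 this
      rw [hε] at h18
      have : 0 < m * s := by positivity
      linarith
    exact hη.symm.trans h16
  calc P₂ * P₁ * (U * (P₂ * P₁) * U')
      = P₂ * P₁ * ((U * P₂ * U') * (U * P₁ * U')) := by
        congr 1
        calc U * (P₂ * P₁) * U' = U * P₂ * (P₁ * U') := by simp only [mul_assoc]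
          _ = U * P₂ * (U' * U) * (P₁ * U') := by rw [h2, mul_one]
          _ = _ := by simp only [mul_assoc]
    _ = P₂ * P₁ * ((U * P₁ * U') * (U * P₂ * U')) := by
        rw [Bi.comm h𝒮 (hcB hP₂B) (hcB hP₁B)]
    _ = P₁ * (P₂ * (U * P₁ * U')) * (U * P₂ * U') := by
        rw [Bi.comm h𝒮 hP₂B hP₁B]; simp only [mul_assoc]
    _ = 0 := by rw [hmain]; simp

end Vale.Agent.P092.H494
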