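import Mathlib
import Vale.Agent.P092.H494.QEndLoc

/-!
P092 (helper494), project Q, block Q-END, part 4: assembly.  Finitely many places `ι i : X →* G i`
and families `𝒜 i` of equivariant fields on `G i`, all values of all fields commuting.
-/

set_option linter.all false

open scoped InnerProductSpace
open Filter Topology ContinuousLinearMap MeasureTheory

namespace Vale.Agent.P092.H494

open Vale.Agent.P092.H828

variable {E : Type*} [NormedAddCommGroup E] [InnerProductSpace ℂ E] [CompleteSpace E]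
variable {X Γ : Type*} [Group X] [Group Γ] {R : X → (E →L[ℂ] E)} {V : Γ → (E →L[ℂ] E)} {ξ : E}

/-- Nondegenerate localisation relative to a family `𝒦` of small subsets of `X`. -/
def Nd (R : X → (E →L[ℂ] E)) (𝒮 : Set (E →L[ℂ] E)) (𝒦 : Set (Set X)) : Prop :=
  ∀ v : E, v ≠ 0 → ∃ T : E →L[ℂ] E, Bi 𝒮 T ∧ T v ≠ 0 ∧ ∃ C ∈ 𝒦, ∀ x, x ∉ C → T * cj R T x = 0

theorem exists_T (h : Reg R ξ) {𝒮 : Set (E →L[ℂ] E)} (h𝒮 : CFam 𝒮)
    (hR : ∀ x, ∀ S ∈ 𝒮, R x * S * R x⁻¹ ∈ 𝒮) {I : Type*} [Finite I] {𝒦 : I → Set (Set X)}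
    (hN : ∀ i, Nd R 𝒮 (𝒦 i))
    (hfin : ∀ C : I → Set X, (∀ i, C i ∈ 𝒦 i) → {x | ∀ i, x ∈ C i}.Finite) :
    ∃ T : E →L[ℂ] E, Bi 𝒮 T ∧ T ≠ 0 ∧ {x | T * cj R T x ≠ 0}.Finite := by
  classical
  have hbc : ∀ {S : E →L[ℂ] E}, Bi 𝒮 S → ∀ x, Bi 𝒮 (cj R S x) := by
    intro S hS x
    exact hS.conj (R_mul_inv h.toURep x) (R_inv_mul h.toURep x) (hR x)
  have hξ : ξ ≠ 0 := by
    intro h0
    have := h.norm_one
    rw [h0, norm_zero] at this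
    exact zero_ne_one this
  have key : ∀ s : Finset I, ∃ T : E →L[ℂ] E, Bi 𝒮 T ∧ T ξ ≠ 0 ∧
      ∀ i ∈ s, ∃ C ∈ 𝒦 i, ∀ x, x ∉ C → T * cj R T x = 0 := by
    intro s
    induction s using Finset.induction_on with
    | empty =>
      exact ⟨1, Bi.one, by simpa using hξ, by simp⟩
    | insert j s hj ih =>
      obtain ⟨T, hT, hTξ, hTs⟩ := ih
      obtain ⟨T', hT', hT'0, C', hC', hC'x⟩ := hN j (T ξ) hTξ
      have hcc : ∀ x, (T' * T) * cj R (T' * T) x = (T' * cj R T' x) * (T * cj R T x) := by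
        intro x
        rw [← cj_mul_cj h.toURep]
        calc T' * T * (cj R T' x * cj R T x) = T' * (T * cj R T' x) * cj R T x := by
              simp only [mul_assoc]
          _ = T' * (cj R T' x * T) * cj R T x := by rw [Bi.comm h𝒮 hT (hbc hT' x)]
          _ = _ := by simp only [mul_assoc]
      refine ⟨T' * T, hT'.mul hT, by simpa using hT'0, ?_⟩
      intro i hi
      rcases Finset.mem_insert.mp hi with rfl | hi
      · exact ⟨C', hC', fun x hx => by rw [hcc, hC'x x hx, zero_mul]⟩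
      · obtain ⟨C, hC, hCx⟩ := hTs i hi
        exact ⟨C, hC, fun x hx => by rw [hcc, hCx x hx, mul_zero]⟩
  cases nonempty_fintype I
  obtain ⟨T, hT, hTξ, hTs⟩ := key Finset.univ
  choose C hC hCx using fun i => hTs i (Finset.mem_univ i)
  refine ⟨T, hT, fun h0 => hTξ (by rw [h0]; rfl), (hfin C hC).subset ?_⟩
  intro x hx i
  by_contra hxi
  exact hx (hCx i x hxi)

section place

variable {G : Type*} [Group G] [TopologicalSpace G] [MeasurableSpace G]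

/-- A family of square integrable equivariant fields at one place. -/
structure Pla (R : X → (E →L[ℂ] E)) (V : Γ → (E →L[ℂ] E)) (ι : X →* G) (μ : Measure G)
    (𝒜 : Set (G → (E →L[ℂ] E))) : Prop where
  equiv : ∀ a ∈ 𝒜, ∀ γ x, a (ι γ * x) = R γ * a x * R γ⁻¹
  bdd : ∀ a ∈ 𝒜, ∃ C, ∀ x, ‖a x‖ ≤ C
  rcont : ∀ a ∈ 𝒜, ∀ ε > 0, ∃ U ∈ 𝓝 (1 : G), ∀ y ∈ U, ∀ x, ‖a (x * y) - a x‖ ≤ ε
  adj : ∀ a ∈ 𝒜, (fun x => adjoint (a x)) ∈ 𝒜
  rt : ∀ a ∈ 𝒜, ∀ y, (fun x => a (x * y)) ∈ 𝒜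
  adV : ∀ a ∈ 𝒜, ∀ g, (fun x => V g * a x * V g⁻¹) ∈ 𝒜
  t4 : ∀ a ∈ 𝒜, ∃ c : ℝ, ∀ ζ, MemLp (fun x => a x ζ) 2 μ ∧ ∫ x, ‖a x ζ‖ ^ 2 ∂μ = c * ‖ζ‖ ^ 2
  ne : ∃ a ∈ 𝒜, ∃ x, a x ≠ 0

/-- The joint eigenvectors separate the points of the place. -/
def Free (𝒜 : Set (G → (E →L[ℂ] E))) : Prop :=
  ∀ w : E, w ≠ 0 → (∀ a ∈ 𝒜, ∀ y, ∃ c : ℂ, a y w = c • w) →
    ∀ z : G, (∀ a ∈ 𝒜, ∀ y, ∀ c : ℂ, a y w = c • w → a (z * y) w = c • w) → z = 1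

/-- The set of values. -/
def vals (𝒜 : Set (G → (E →L[ℂ] E))) : Set (E →L[ℂ] E) := {S | ∃ a ∈ 𝒜, ∃ y, S = a y}

theorem Pla.vals_adj {ι : X →* G} {μ : Measure G} {𝒜 : Set (G → (E →L[ℂ] E))}
    (h : Pla R V ι μ 𝒜) : ∀ S ∈ vals 𝒜, adjoint S ∈ vals 𝒜 := by
  rintro _ ⟨a, ha, y, rfl⟩
  exact ⟨_, h.adj a ha, y, rfl⟩

theorem Pla.vals_R {ι : X →* G} {μ : Measure G} {𝒜 : Set (G → (E →L[ℂ] E))}
    (h : Pla R V ι μ 𝒜) (x : X) : ∀ S ∈ vals 𝒜, R x * S * R x⁻¹ ∈ vals 𝒜 := by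
  rintro _ ⟨a, ha, y, rfl⟩
  exact ⟨a, ha, ι x * y, (h.equiv a ha x y).symm⟩

theorem Pla.vals_V {ι : X →* G} {μ : Measure G} {𝒜 : Set (G → (E →L[ℂ] E))}
    (h : Pla R V ι μ 𝒜) (g : Γ) : ∀ S ∈ vals 𝒜, V g * S * V g⁻¹ ∈ vals 𝒜 := by
  rintro _ ⟨a, ha, y, rfl⟩
  exact ⟨_, h.adV a ha g, y, rfl⟩

variable [IsTopologicalGroup G]

theorem continuous_of_rcont {a : G → (E →L[ℂ] E)}
    (h : ∀ ε > 0, ∃ U ∈ 𝓝 (1 : G), ∀ y ∈ U, ∀ x, ‖a (x * y) - a x‖ ≤ ε) : Continuous a := by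
  rw [continuous_iff_continuousAt]
  intro x
  rw [ContinuousAt, Metric.tendsto_nhds]
  intro ε hε
  obtain ⟨U, hU, hU'⟩ := h (ε / 2) (by positivity)
  have h1 : Tendsto (fun y => x⁻¹ * y) (𝓝 x) (𝓝 1) := by
    have : Continuous fun y : G => x⁻¹ * y := by fun_prop
    have := this.tendsto x
    simpa using this
  filter_upwards [h1 hU] with y hy
  have h2 := hU' _ hy x
  rw [mul_inv_cancel_left] at h2
  rw [dist_eq_norm]
  linarith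

variable [LocallyCompactSpace G] [T2Space G] [SigmaCompactSpace G] [BorelSpace G]
  {μ : Measure G} [μ.IsHaarMeasure]

theorem Pla.nd (hR : URep R) {ι : X →* G} {𝒜 : Set (G → (E →L[ℂ] E))} (h : Pla R V ι μ 𝒜)
    {𝒮 : Set (E →L[ℂ] E)} (h𝒮 : CFam 𝒮) (hRS : ∀ x, ∀ S ∈ 𝒮, R x * S * R x⁻¹ ∈ 𝒮)
    (hsub : vals 𝒜 ⊆ 𝒮) : Nd R 𝒮 {C | ∃ K : Set G, IsCompact K ∧ C = ι ⁻¹' K} := by
  intro v hv
  obtain ⟨a₀, ha₀, x₀, hx₀⟩ := h.ne
  have hc₀ := continuous_of_rcont (h.rcont a₀ ha₀)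
  -- a point where the field does not kill `v`
  obtain ⟨y, hy⟩ : ∃ y, a₀ y v ≠ 0 := by
    by_contra hn
    push Not at hn
    obtain ⟨c, hc⟩ := h.t4 a₀ ha₀
    have h1 : c = 0 := by
      have := (hc v).2
      simp only [hn, norm_zero] at this
      have hvn : ‖v‖ ^ 2 ≠ 0 := by positivity
      simp only [ne_eq, OfNat.ofNat_ne_zero, not_false_eq_true, zero_pow, integral_zero] at this
      exact (mul_eq_zero.mp this.symm).resolve_right hvn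
    apply hx₀
    ext ζ
    have h2 := (hc ζ).2
    rw [h1, zero_mul] at h2
    have hint : Integrable (fun x => ‖a₀ x ζ‖ ^ 2) μ := (hc ζ).1.integrable_norm_pow (by norm_num)
    have hcont : Continuous fun x => ‖a₀ x ζ‖ ^ 2 := by fun_prop
    have h3 := (integral_eq_zero_iff_of_nonneg (fun x => by positivity) hint).mp h2
    have h4 : (fun x => ‖a₀ x ζ‖ ^ 2) = fun _ => 0 :=
      (hcont.ae_eq_iff_eq μ continuous_const).mp h3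
    have h5 := congrFun h4 x₀
    simpa using h5
  obtain ⟨a, ha, haa⟩ : ∃ a ∈ 𝒜, a = fun x => a₀ (x * y) := ⟨_, h.rt a₀ ha₀ y, rfl⟩
  have ha1 : a 1 v ≠ 0 := by rw [haa]; simpa using hy
  have hca : Continuous a := continuous_of_rcont (h.rcont a ha)
  obtain ⟨c, hc⟩ := h.t4 a ha
  obtain ⟨M, hM⟩ := h.bdd a ha
  have hM0 : 0 ≤ M := (norm_nonneg _).trans (hM 1)
  obtain ⟨A, hA⟩ : ∃ A : G → (E →L[ℂ] E), A = fun x => adjoint (a x) * a x := ⟨_, rfl⟩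
  have hqA : ∀ x ζ, qf (A x) ζ = ‖a x ζ‖ ^ 2 := fun x ζ => by rw [hA]; exact qf_adj_mul _ _
  have hadj : Continuous fun x => adjoint (a x) := by
    exact (LinearIsometryEquiv.continuous _).comp hca
  have hD : Den μ A c := by
    refine ⟨?_, ?_, ?_, ?_, ?_, ?_⟩
    · rw [hA]; exact hadj.mul hca
    · intro x; rw [hA]; simp only [adj_mul, adjoint_adjoint]
    · intro x ζ; rw [hqA]; positivity
    · intro ζ; simp only [hqA]; exact (hc ζ).1.integrable_norm_pow (by norm_num)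
    · intro ζ; simp only [hqA]; exact (hc ζ).2
    · intro ε hε
      obtain ⟨U, hU, hU'⟩ := h.rcont a ha (ε / (2 * M + 1)) (by positivity)
      refine ⟨U, hU, fun y hy x => ?_⟩
      have h1 := hU' y hy x
      have h2 : A (x * y) - A x = adjoint (a (x * y) - a x) * a (x * y)
          + adjoint (a x) * (a (x * y) - a x) := by
        rw [hA, map_sub]
        simp only
        rw [sub_mul, mul_sub]
        abel
      rw [h2]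
      have h3 : ‖adjoint (a (x * y) - a x)‖ ≤ ε / (2 * M + 1) := by
        rw [LinearIsometryEquiv.norm_map]; exact h1
      have h4 : ‖adjoint (a x)‖ ≤ M := by
        rw [LinearIsometryEquiv.norm_map]; exact hM x
      calc ‖adjoint (a (x * y) - a x) * a (x * y) + adjoint (a x) * (a (x * y) - a x)‖
          ≤ ‖adjoint (a (x * y) - a x)‖ * ‖a (x * y)‖
            + ‖adjoint (a x)‖ * ‖a (x * y) - a x‖ :=
            (norm_add_le _ _).trans (add_le_add (norm_mul_le _ _) (norm_mul_le _ _))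
        _ ≤ ε / (2 * M + 1) * M + M * (ε / (2 * M + 1)) := by
            gcongr
            exact hM _
        _ = ε * ((2 * M) / (2 * M + 1)) := by ring
        _ ≤ ε * 1 := by
            refine mul_le_mul_of_nonneg_left ?_ hε.le
            rw [div_le_one (by positivity)]
            linarith
        _ = ε := mul_one _
  have hAB : ∀ x, Bi 𝒮 (A x) := by
    intro x
    rw [hA]
    have h1 : Bi 𝒮 (a x) := Bi.of_mem (hsub ⟨a, ha, x, rfl⟩)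
    exact (h1.adj h𝒮).mul h1
  have hv1 : 0 < qf (A 1) v := by rw [hqA]; positivity
  obtain ⟨T, hT, hTv, C, hC, hCx⟩ := hD.exists_loc h𝒮 hAB hv1
  refine ⟨T, hT, hTv, ι ⁻¹' C, ⟨C, hC, rfl⟩, fun x hx => ?_⟩
  refine hCx (R x) (R x⁻¹) (ι x) (R_mul_inv hR x) (R_inv_mul hR x) (hR.adj x) (hRS x) ?_ hx
  rw [hA]
  simp only
  have h1 := h.equiv a ha x 1
  rw [mul_one] at h1
  rw [h1]
  have h2 : adjoint (R x * a 1 * R x⁻¹) = R x * adjoint (a 1) * R x⁻¹ := by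
    rw [adj_mul, adj_mul, hR.adj, hR.adj, inv_inv, mul_assoc]
  rw [h2]
  calc R x * (adjoint (a 1) * a 1) * R x⁻¹ = R x * adjoint (a 1) * 1 * (a 1 * R x⁻¹) := by
        simp only [mul_assoc, mul_one, one_mul]
    _ = R x * adjoint (a 1) * (R x⁻¹ * R x) * (a 1 * R x⁻¹) := by rw [R_inv_mul hR]
    _ = _ := by simp only [mul_assoc]

theorem Pla.free_use {ι : X →* G} {𝒜 : Set (G → (E →L[ℂ] E))} (hR : URep R)
    (h : Pla R V ι μ 𝒜) (hf : Free 𝒜) {𝒮 : Set (E →L[ℂ] E)} (hsub : vals 𝒜 ⊆ 𝒮) {w : E}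
    (hw : JE 𝒮 w) {x : X} (hx : R x w ∈ eig 𝒮 w) : ι x = 1 := by
  have h1 : ι x⁻¹ = 1 := by
    refine hf w hw.1 (fun a ha y => hw.2 _ (hsub ⟨a, ha, y, rfl⟩)) _ ?_
    intro a ha y c hc
    rw [h.equiv a ha]
    have h2 := hx _ (hsub ⟨a, ha, y, rfl⟩) c hc
    simp only [ContinuousLinearMap.mul_apply, inv_inv]
    rw [h2, map_smul, hR.inv_apply]
  rw [map_inv, inv_eq_one] at h1
  exact h1

/-- Totality of the fields implies that the joint eigenvectors separate the points. -/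
theorem free_of_full {ι : X →* G} {𝒜 : Set (G → (E →L[ℂ] E))} (h : Pla R V ι μ 𝒜)
    (hfull : ∀ F : Lp E 2 μ, (∀ a ∈ 𝒜, ∀ ζ, ∫ x, ⟪a x ζ, F x⟫_ℂ ∂μ = 0) → F = 0) : Free 𝒜 := by
  intro w hw hev z hz
  by_contra hz1
  -- a bump function at `1`
  obtain ⟨φ, hφ1, hφ0, hφc, hφI⟩ := exists_continuous_one_zero_of_isCompact
    (isCompact_singleton (x := (1 : G))) (isClosed_singleton (x := z⁻¹))
    (by rw [Set.disjoint_singleton]; exact fun h0 => hz1 (inv_eq_one.mp h0.symm))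
  obtain ⟨f, hf⟩ : ∃ f : G → ℝ, f = fun x => φ x - φ (z⁻¹ * x) := ⟨_, rfl⟩
  have hψc : Continuous fun x => φ (z⁻¹ * x) := by fun_prop
  have hψs : HasCompactSupport fun x => φ (z⁻¹ * x) :=
    hφc.comp_homeomorph (Homeomorph.mulLeft z⁻¹)
  have hfc : Continuous f := by rw [hf]; exact φ.continuous.sub hψc
  have hfs : HasCompactSupport f := by
    rw [hf]; exact hφc.sub hψs
  have hf1 : f 1 = 1 := by
    have h1 : φ 1 = 1 := hφ1 (Set.mem_singleton _)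
    have h2 : φ z⁻¹ = 0 := hφ0 (Set.mem_singleton _)
    rw [hf]
    simp only [mul_one]
    rw [h1, h2, sub_zero]
  have hFc : Continuous fun x => (f x : ℂ) • w := by fun_prop
  have hFs : HasCompactSupport fun x => (f x : ℂ) • w := by
    refine hfs.mono fun x hx => ?_
    intro h0
    exact hx (by simp only [h0, Complex.ofReal_zero, zero_smul])
  have hF : MemLp (fun x => (f x : ℂ) • w) 2 μ := hFc.memLp_of_hasCompactSupport hFs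
  -- the eigenvalues
  have hcoef : ∀ a ∈ 𝒜, ∃ c : G → ℂ, Continuous c ∧ (∀ y, a y w = c y • w) ∧
      ∀ y, c (z * y) = c y := by
    intro a ha
    choose c hc using fun y => hev a ha y
    have hww : ⟪w, w⟫_ℂ ≠ 0 := inner_self_ne_zero.mpr hw
    have h1 : ∀ y, c y = ⟪w, a y w⟫_ℂ / ⟪w, w⟫_ℂ := by
      intro y
      rw [hc, inner_smul_right, mul_div_assoc, div_self hww, mul_one]
    refine ⟨c, ?_, hc, ?_⟩
    · have h2 : c = fun y => ⟪w, a y w⟫_ℂ / ⟪w, w⟫_ℂ := funext h1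
      rw [h2]
      have := continuous_of_rcont (h.rcont a ha)
      fun_prop
    · intro y
      have h3 := hz a ha y (c y) (hc y)
      have h4 := hc (z * y)
      have h5 : (c (z * y) - c y) • w = 0 := by rw [sub_smul, ← h3, ← h4, sub_self]
      exact sub_eq_zero.mp ((smul_eq_zero.mp h5).resolve_right hw)
  have h0 : hF.toLp = (0 : Lp E 2 μ) := by
    refine hfull _ fun a ha ζ => ?_
    obtain ⟨c, hcc, hc, hcz⟩ := hcoef _ (h.adj a ha)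
    have h1 : ∫ x, ⟪a x ζ, (hF.toLp : Lp E 2 μ) x⟫_ℂ ∂μ = ∫ x, ((f x : ℂ) * c x) * ⟪ζ, w⟫_ℂ ∂μ := by
      refine integral_congr_ae ?_
      filter_upwards [hF.coeFn_toLp] with x hx
      rw [hx, ← adjoint_inner_right, map_smul, hc x, inner_smul_right, inner_smul_right, mul_assoc]
    rw [h1, integral_mul_const]
    have h2 : ∫ x, (f x : ℂ) * c x ∂μ = 0 := by
      have i1 : Integrable (fun x => (φ x : ℂ) * c x) μ := by
        refine Continuous.integrable_of_hasCompactSupport (by fun_prop) ?_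
        refine hφc.mono fun x hx => ?_
        intro h0
        exact hx (by simp only [h0, Complex.ofReal_zero, zero_mul])
      have i2 : Integrable (fun x => (φ (z⁻¹ * x) : ℂ) * c x) μ := by
        refine Continuous.integrable_of_hasCompactSupport (by fun_prop) ?_
        refine hψs.mono fun x hx => ?_
        intro h0
        exact hx (by simp only [h0, Complex.ofReal_zero, zero_mul])
      have h3 : (fun x => (f x : ℂ) * c x) =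
          fun x => (φ x : ℂ) * c x - (φ (z⁻¹ * x) : ℂ) * c x := by
        funext x; rw [hf]; push_cast; ring
      rw [h3, integral_sub i1 i2]
      have h4 : ∫ x, (φ (z⁻¹ * x) : ℂ) * c x ∂μ = ∫ x, (φ x : ℂ) * c x ∂μ := by
        rw [← integral_mul_left_eq_self (fun x => (φ (z⁻¹ * x) : ℂ) * c x) z]
        refine integral_congr_ae (Eventually.of_forall fun x => ?_)
        simp only [inv_mul_cancel_left, hcz]
      rw [h4, sub_self]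
    rw [h2, zero_mul]
  have h6 : (fun x => (f x : ℂ) • w) =ᵐ[μ] fun _ => 0 := by
    have h7 := hF.coeFn_toLp
    rw [h0] at h7
    exact h7.symm.trans (Lp.coeFn_zero E 2 μ)
  have h8 : (fun x => (f x : ℂ) • w) = fun _ => 0 := (hFc.ae_eq_iff_eq μ continuous_const).mp h6
  have h9 := congrFun h8 1
  simp only [hf1, Complex.ofReal_one, one_smul] at h9
  exact hw h9

end place

/-- **Q-END, any finite family of places.** -/
theorem q_end (h : Reg R ξ) (hV : URep V) (hVR : ∀ g x, V g * R x = R x * V g)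
    {I : Type*} [Finite I] {G : I → Type*} [∀ i, Group (G i)] [∀ i, TopologicalSpace (G i)]
    [∀ i, MeasurableSpace (G i)] [∀ i, IsTopologicalGroup (G i)] [∀ i, LocallyCompactSpace (G i)]
    [∀ i, T2Space (G i)] [∀ i, SigmaCompactSpace (G i)] [∀ i, BorelSpace (G i)]
    (ι : ∀ i, X →* G i) (μ : ∀ i, Measure (G i)) [∀ i, (μ i).IsHaarMeasure]
    (𝒜 : ∀ i, Set (G i → (E →L[ℂ] E))) (hP : ∀ i, Pla R V (ι i) (μ i) (𝒜 i))
    (hcomm : ∀ i j, ∀ a ∈ 𝒜 i, ∀ b ∈ 𝒜 j, ∀ x y, a x * b y = b y * a x)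
    (hfree : ∀ i, Free (𝒜 i)) (hinj : ∀ x, (∀ i, ι i x = 1) → x = 1)
    (hfin : ∀ C : ∀ i, Set (G i), (∀ i, IsCompact (C i)) → {x | ∀ i, ι i x ∈ C i}.Finite) :
    ∃ (w : E) (δ : Γ →* X) (χ : Γ →* ℂ), Reg R w ∧ (∀ i, ∀ a ∈ 𝒜 i, ∀ x, ∃ c : ℂ, a x w = c • w) ∧
      (∀ g, ‖χ g‖ = 1) ∧ ∀ g, V g w = χ g • R (δ g)⁻¹ w := by
  obtain ⟨𝒮, h𝒮⟩ : ∃ 𝒮 : Set (E →L[ℂ] E), 𝒮 = ⋃ i, vals (𝒜 i) := ⟨_, rfl⟩
  have hm : ∀ S, S ∈ 𝒮 ↔ ∃ i, S ∈ vals (𝒜 i) := fun S => by rw [h𝒮, Set.mem_iUnion]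
  have hsub : ∀ i, vals (𝒜 i) ⊆ 𝒮 := fun i S hS => (hm S).mpr ⟨i, hS⟩
  have hC : CFam 𝒮 := by
    constructor
    · intro S hS S' hS'
      obtain ⟨i, a, ha, x, rfl⟩ := (hm S).mp hS
      obtain ⟨j, b, hb, y, rfl⟩ := (hm S').mp hS'
      exact hcomm i j a ha b hb x y
    · intro S hS
      obtain ⟨i, hi⟩ := (hm S).mp hS
      exact hsub i ((hP i).vals_adj S hi)
  have hR : ∀ x, ∀ S ∈ 𝒮, R x * S * R x⁻¹ ∈ 𝒮 := by
    intro x S hS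
    obtain ⟨i, hi⟩ := (hm S).mp hS
    exact hsub i ((hP i).vals_R x S hi)
  have hVS : ∀ g, ∀ S ∈ 𝒮, V g * S * V g⁻¹ ∈ 𝒮 := by
    intro g S hS
    obtain ⟨i, hi⟩ := (hm S).mp hS
    exact hsub i ((hP i).vals_V g S hi)
  obtain ⟨T, hT, hT0, hTf⟩ := exists_T h hC hR
    (𝒦 := fun i => {C | ∃ K : Set (G i), IsCompact K ∧ C = ι i ⁻¹' K})
    (fun i => (hP i).nd h.toURep hC hR (hsub i))
    (by
      intro C hCi
      choose K hK hKC using hCi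
      refine (hfin K hK).subset fun x hx i => ?_
      have := hx i
      rw [hKC i] at this
      exact this)
  obtain ⟨w, δ, χ, h1, h2, h3, h4⟩ := core h hV hVR hC hR hVS
    (fun w hw x hx => hinj x fun i => (hP i).free_use h.toURep (hfree i) (hsub i) hw hx)
    hT hT0 hTf
  exact ⟨w, δ, χ, h1, fun i a ha x => h2.2 _ (hsub i ⟨a, ha, x, rfl⟩), h3, h4⟩

/-- **Q-END, two places** (separate types). -/
theorem q_end2 (h : Reg R ξ) (hV : URep V) (hVR : ∀ g x, V g * R x = R x * V g)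
    {G₁ G₂ : Type*} [Group G₁] [TopologicalSpace G₁] [MeasurableSpace G₁] [IsTopologicalGroup G₁]
    [LocallyCompactSpace G₁] [T2Space G₁] [SigmaCompactSpace G₁] [BorelSpace G₁]
    [Group G₂] [TopologicalSpace G₂] [MeasurableSpace G₂] [IsTopologicalGroup G₂]
    [LocallyCompactSpace G₂] [T2Space G₂] [SigmaCompactSpace G₂] [BorelSpace G₂]
    {ι₁ : X →* G₁} {ι₂ : X →* G₂} {μ₁ : Measure G₁} {μ₂ : Measure G₂}
    [μ₁.IsHaarMeasure] [μ₂.IsHaarMeasure]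
    {𝒜₁ : Set (G₁ → (E →L[ℂ] E))} {𝒜₂ : Set (G₂ → (E →L[ℂ] E))}
    (h₁ : Pla R V ι₁ μ₁ 𝒜₁) (h₂ : Pla R V ι₂ μ₂ 𝒜₂) (f₁ : Free 𝒜₁) (f₂ : Free 𝒜₂)
    (h11 : ∀ a ∈ 𝒜₁, ∀ b ∈ 𝒜₁, ∀ x y, a x * b y = b y * a x)
    (h12 : ∀ a ∈ 𝒜₁, ∀ b ∈ 𝒜₂, ∀ x y, a x * b y = b y * a x)
    (h22 : ∀ a ∈ 𝒜₂, ∀ b ∈ 𝒜₂, ∀ x y, a x * b y = b y * a x)
    (hinj : ∀ x, ι₁ x = 1 → ι₂ x = 1 → x = 1)
    (hfin : ∀ C₁ : Set G₁, ∀ C₂ : Set G₂, IsCompact C₁ → IsCompact C₂ →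
      {x | ι₁ x ∈ C₁ ∧ ι₂ x ∈ C₂}.Finite) :
    ∃ (w : E) (δ : Γ →* X) (χ : Γ →* ℂ), Reg R w ∧
      (∀ a ∈ 𝒜₁, ∀ x, ∃ c : ℂ, a x w = c • w) ∧ (∀ a ∈ 𝒜₂, ∀ x, ∃ c : ℂ, a x w = c • w) ∧
      (∀ g, ‖χ g‖ = 1) ∧ ∀ g, V g w = χ g • R (δ g)⁻¹ w := by
  obtain ⟨𝒮, h𝒮⟩ : ∃ 𝒮 : Set (E →L[ℂ] E), 𝒮 = vals 𝒜₁ ∪ vals 𝒜₂ := ⟨_, rfl⟩
  have s₁ : vals 𝒜₁ ⊆ 𝒮 := by rw [h𝒮]; exact Set.subset_union_left
  have s₂ : vals 𝒜₂ ⊆ 𝒮 := by rw [h𝒮]; exact Set.subset_union_right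
  have hC : CFam 𝒮 := by
    constructor
    · rw [h𝒮]
      rintro _ (⟨a, ha, x, rfl⟩ | ⟨a, ha, x, rfl⟩) _ (⟨b, hb, y, rfl⟩ | ⟨b, hb, y, rfl⟩)
      · exact h11 a ha b hb x y
      · exact h12 a ha b hb x y
      · exact (h12 b hb a ha y x).symm
      · exact h22 a ha b hb x y
    · intro S hS
      rw [h𝒮] at hS
      rcases hS with hS | hS
      · exact s₁ (h₁.vals_adj S hS)
      · exact s₂ (h₂.vals_adj S hS)
  have hR : ∀ x, ∀ S ∈ 𝒮, R x * S * R x⁻¹ ∈ 𝒮 := by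
    intro x S hS
    rw [h𝒮] at hS
    rcases hS with hS | hS
    · exact s₁ (h₁.vals_R x S hS)
    · exact s₂ (h₂.vals_R x S hS)
  have hVS : ∀ g, ∀ S ∈ 𝒮, V g * S * V g⁻¹ ∈ 𝒮 := by
    intro x S hS
    rw [h𝒮] at hS
    rcases hS with hS | hS
    · exact s₁ (h₁.vals_V x S hS)
    · exact s₂ (h₂.vals_V x S hS)
  obtain ⟨T, hT, hT0, hTf⟩ := exists_T h hC hR
    (𝒦 := fun i : Bool => if i then {C | ∃ K : Set G₁, IsCompact K ∧ C = ι₁ ⁻¹' K}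
      else {C | ∃ K : Set G₂, IsCompact K ∧ C = ι₂ ⁻¹' K})
    (by
      intro i
      cases i
      · exact h₂.nd h.toURep hC hR s₂
      · exact h₁.nd h.toURep hC hR s₁)
    (by
      intro C hCi
      obtain ⟨K₁, hK₁, e₁⟩ := (show ∃ K : Set G₁, IsCompact K ∧ C true = ι₁ ⁻¹' K from hCi true)
      obtain ⟨K₂, hK₂, e₂⟩ := (show ∃ K : Set G₂, IsCompact K ∧ C false = ι₂ ⁻¹' K from hCi false)
      refine (hfin K₁ K₂ hK₁ hK₂).subset fun x hx => ⟨?_, ?_⟩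
      · have := hx true
        rwa [e₁] at this
      · have := hx false
        rwa [e₂] at this)
  obtain ⟨w, δ, χ, h1, h2, h3, h4⟩ := core h hV hVR hC hR hVS
    (fun w hw x hx => hinj x (h₁.free_use h.toURep f₁ s₁ hw hx) (h₂.free_use h.toURep f₂ s₂ hw hx))
    hT hT0 hTf
  exact ⟨w, δ, χ, h1, fun a ha x => h2.2 _ (s₁ ⟨a, ha, x, rfl⟩),
    fun a ha x => h2.2 _ (s₂ ⟨a, ha, x, rfl⟩), h3, h4⟩

/-- **Q-END, four places** (separate types): two legs and two factors. -/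
theorem q_end4 (h : Reg R ξ) (hV : URep V) (hVR : ∀ g x, V g * R x = R x * V g)
    {G₁ G₂ G₃ G₄ : Type*}
    [Group G₁] [TopologicalSpace G₁] [MeasurableSpace G₁] [IsTopologicalGroup G₁]
    [LocallyCompactSpace G₁] [T2Space G₁] [SigmaCompactSpace G₁] [BorelSpace G₁]
    [Group G₂] [TopologicalSpace G₂] [MeasurableSpace G₂] [IsTopologicalGroup G₂]
    [LocallyCompactSpace G₂] [T2Space G₂] [SigmaCompactSpace G₂] [BorelSpace G₂]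
    [Group G₃] [TopologicalSpace G₃] [MeasurableSpace G₃] [IsTopologicalGroup G₃]
    [LocallyCompactSpace G₃] [T2Space G₃] [SigmaCompactSpace G₃] [BorelSpace G₃]
    [Group G₄] [TopologicalSpace G₄] [MeasurableSpace G₄] [IsTopologicalGroup G₄]
    [LocallyCompactSpace G₄] [T2Space G₄] [SigmaCompactSpace G₄] [BorelSpace G₄]
    {ι₁ : X →* G₁} {ι₂ : X →* G₂} {ι₃ : X →* G₃} {ι₄ : X →* G₄}
    {μ₁ : Measure G₁} {μ₂ : Measure G₂} {μ₃ : Measure G₃} {μ₄ : Measure G₄}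
    [μ₁.IsHaarMeasure] [μ₂.IsHaarMeasure] [μ₃.IsHaarMeasure] [μ₄.IsHaarMeasure]
    {𝒜₁ : Set (G₁ → (E →L[ℂ] E))} {𝒜₂ : Set (G₂ → (E →L[ℂ] E))}
    {𝒜₃ : Set (G₃ → (E →L[ℂ] E))} {𝒜₄ : Set (G₄ → (E →L[ℂ] E))}
    (h₁ : Pla R V ι₁ μ₁ 𝒜₁) (h₂ : Pla R V ι₂ μ₂ 𝒜₂) (h₃ : Pla R V ι₃ μ₃ 𝒜₃)
    (h₄ : Pla R V ι₄ μ₄ 𝒜₄) (f₁ : Free 𝒜₁) (f₂ : Free 𝒜₂) (f₃ : Free 𝒜₃) (f₄ : Free 𝒜₄)
    (hc : ∀ S ∈ vals 𝒜₁ ∪ vals 𝒜₂ ∪ vals 𝒜₃ ∪ vals 𝒜₄,
      ∀ S' ∈ vals 𝒜₁ ∪ vals 𝒜₂ ∪ vals 𝒜₃ ∪ vals 𝒜₄, S * S' = S' * S)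
    (hinj : ∀ x, ι₁ x = 1 → ι₂ x = 1 → ι₃ x = 1 → ι₄ x = 1 → x = 1)
    (hfin : ∀ (C₁ : Set G₁) (C₂ : Set G₂) (C₃ : Set G₃) (C₄ : Set G₄), IsCompact C₁ →
      IsCompact C₂ → IsCompact C₃ → IsCompact C₄ →
      {x | ι₁ x ∈ C₁ ∧ ι₂ x ∈ C₂ ∧ ι₃ x ∈ C₃ ∧ ι₄ x ∈ C₄}.Finite) :
    ∃ (w : E) (δ : Γ →* X) (χ : Γ →* ℂ), Reg R w ∧
      (∀ S ∈ vals 𝒜₁ ∪ vals 𝒜₂ ∪ vals 𝒜₃ ∪ vals 𝒜₄, ∃ c : ℂ, S w = c • w) ∧
      (∀ g, ‖χ g‖ = 1) ∧ ∀ g, V g w = χ g • R (δ g)⁻¹ w := by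
  obtain ⟨𝒮, h𝒮⟩ : ∃ 𝒮 : Set (E →L[ℂ] E), 𝒮 = vals 𝒜₁ ∪ vals 𝒜₂ ∪ vals 𝒜₃ ∪ vals 𝒜₄ := ⟨_, rfl⟩
  rw [← h𝒮] at hc ⊢
  have s₁ : vals 𝒜₁ ⊆ 𝒮 := by
    rw [h𝒮]; exact fun S hS => Or.inl (Or.inl (Or.inl hS))
  have s₂ : vals 𝒜₂ ⊆ 𝒮 := by
    rw [h𝒮]; exact fun S hS => Or.inl (Or.inl (Or.inr hS))
  have s₃ : vals 𝒜₃ ⊆ 𝒮 := by
    rw [h𝒮]; exact fun S hS => Or.inl (Or.inr hS)
  have s₄ : vals 𝒜₄ ⊆ 𝒮 := by
    rw [h𝒮]; exact fun S hS => Or.inr hS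
  have hcases : ∀ S ∈ 𝒮, S ∈ vals 𝒜₁ ∨ S ∈ vals 𝒜₂ ∨ S ∈ vals 𝒜₃ ∨ S ∈ vals 𝒜₄ := by
    intro S hS
    rw [h𝒮] at hS
    rcases hS with ((hS | hS) | hS) | hS
    · exact Or.inl hS
    · exact Or.inr (Or.inl hS)
    · exact Or.inr (Or.inr (Or.inl hS))
    · exact Or.inr (Or.inr (Or.inr hS))
  have hC : CFam 𝒮 := by
    refine ⟨hc, fun S hS => ?_⟩
    rcases hcases S hS with hS | hS | hS | hS
    · exact s₁ (h₁.vals_adj S hS)
    · exact s₂ (h₂.vals_adj S hS)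
    · exact s₃ (h₃.vals_adj S hS)
    · exact s₄ (h₄.vals_adj S hS)
  have hR : ∀ x, ∀ S ∈ 𝒮, R x * S * R x⁻¹ ∈ 𝒮 := by
    intro x S hS
    rcases hcases S hS with hS | hS | hS | hS
    · exact s₁ (h₁.vals_R x S hS)
    · exact s₂ (h₂.vals_R x S hS)
    · exact s₃ (h₃.vals_R x S hS)
    · exact s₄ (h₄.vals_R x S hS)
  have hVS : ∀ g, ∀ S ∈ 𝒮, V g * S * V g⁻¹ ∈ 𝒮 := by
    intro x S hS
    rcases hcases S hS with hS | hS | hS | hS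
    · exact s₁ (h₁.vals_V x S hS)
    · exact s₂ (h₂.vals_V x S hS)
    · exact s₃ (h₃.vals_V x S hS)
    · exact s₄ (h₄.vals_V x S hS)
  obtain ⟨T, hT, hT0, hTf⟩ := exists_T h hC hR
    (𝒦 := fun i : Fin 4 => match i with
      | 0 => {C | ∃ K : Set G₁, IsCompact K ∧ C = ι₁ ⁻¹' K}
      | 1 => {C | ∃ K : Set G₂, IsCompact K ∧ C = ι₂ ⁻¹' K}
      | 2 => {C | ∃ K : Set G₃, IsCompact K ∧ C = ι₃ ⁻¹' K}
      | 3 => {C | ∃ K : Set G₄, IsCompact K ∧ C = ι₄ ⁻¹' K})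
    (by
      intro i
      match i with
      | 0 => exact h₁.nd h.toURep hC hR s₁
      | 1 => exact h₂.nd h.toURep hC hR s₂
      | 2 => exact h₃.nd h.toURep hC hR s₃
      | 3 => exact h₄.nd h.toURep hC hR s₄)
    (by
      intro C hCi
      obtain ⟨K₁, hK₁, e₁⟩ := (show ∃ K : Set G₁, IsCompact K ∧ C 0 = ι₁ ⁻¹' K from hCi 0)
      obtain ⟨K₂, hK₂, e₂⟩ := (show ∃ K : Set G₂, IsCompact K ∧ C 1 = ι₂ ⁻¹' K from hCi 1)
      obtain ⟨K₃, hK₃, e₃⟩ := (show ∃ K : Set G₃, IsCompact K ∧ C 2 = ι₃ ⁻¹' K from hCi 2)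
      obtain ⟨K₄, hK₄, e₄⟩ := (show ∃ K : Set G₄, IsCompact K ∧ C 3 = ι₄ ⁻¹' K from hCi 3)
      refine (hfin K₁ K₂ K₃ K₄ hK₁ hK₂ hK₃ hK₄).subset fun x hx => ⟨?_, ?_, ?_, ?_⟩
      · have := hx 0
        rwa [e₁] at this
      · have := hx 1
        rwa [e₂] at this
      · have := hx 2
        rwa [e₃] at this
      · have := hx 3
        rwa [e₄] at this)
  obtain ⟨w, δ, χ, h1, h2, h3, h4⟩ := core h hV hVR hC hR hVS
    (fun w hw x hx => hinj x (h₁.free_use h.toURep f₁ s₁ hw hx) (h₂.free_use h.toURep f₂ s₂ hw hx)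
      (h₃.free_use h.toURep f₃ s₃ hw hx) (h₄.free_use h.toURep f₄ s₄ hw hx))
    hT hT0 hTf
  exact ⟨w, δ, χ, h1, h2.2, h3, h4⟩

end Vale.Agent.P092.H494
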