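import Mathlib

/-!
P092, TEAM P (helper494), row [P-WL]: weak limits of bounded operators along filters, existence
along ultrafilters.
-/

set_option linter.all false

open scoped InnerProductSpace ComplexOrder
open Filter Topology ContinuousLinearMap

namespace Vale.Agent.P092.H494.PW

variable {K : Type*} [NormedAddCommGroup K] [InnerProductSpace ℂ K] [CompleteSpace K]
  {ι : Type*} {l : Filter ι}

/-- weak convergence of operators along a filter -/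
def WLim (l : Filter ι) (A : ι → (K →L[ℂ] K)) (T : K →L[ℂ] K) : Prop :=
  ∀ ξ η, Tendsto (fun i => ⟪η, A i ξ⟫_ℂ) l (𝓝 ⟪η, T ξ⟫_ℂ)

theorem WLim.unique [l.NeBot] {A : ι → (K →L[ℂ] K)} {T S : K →L[ℂ] K} (h : WLim l A T)
    (h' : WLim l A S) : T = S := by
  ext ξ
  refine ext_inner_left ℂ fun η => ?_
  exact tendsto_nhds_unique (h ξ η) (h' ξ η)

theorem WLim.congr' {A B : ι → (K →L[ℂ] K)} {T : K →L[ℂ] K} (h : WLim l A T)
    (e : ∀ᶠ i in l, A i = B i) : WLim l B T := fun ξ η =>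
  (h ξ η).congr' (e.mono fun i hi => by rw [hi])

theorem WLim.congr {A B : ι → (K →L[ℂ] K)} {T : K →L[ℂ] K} (h : WLim l A T)
    (e : ∀ i, A i = B i) : WLim l B T := h.congr' (Eventually.of_forall e)

theorem WLim.const (T : K →L[ℂ] K) : WLim l (fun _ => T) T := fun ξ η => tendsto_const_nhds

theorem WLim.mono {l' : Filter ι} {A : ι → (K →L[ℂ] K)} {T : K →L[ℂ] K} (h : WLim l A T)
    (hl : l' ≤ l) : WLim l' A T := fun ξ η => (h ξ η).mono_left hl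

theorem WLim.comp {κ : Type*} {l' : Filter κ} {A : ι → (K →L[ℂ] K)} {T : K →L[ℂ] K}
    (h : WLim l A T) {φ : κ → ι} (hφ : Tendsto φ l' l) : WLim l' (fun j => A (φ j)) T :=
  fun ξ η => (h ξ η).comp hφ

theorem WLim.add {A B : ι → (K →L[ℂ] K)} {T S : K →L[ℂ] K} (h : WLim l A T)
    (h' : WLim l B S) : WLim l (fun i => A i + B i) (T + S) := fun ξ η => by
  simp only [ContinuousLinearMap.add_apply, inner_add_right]
  exact (h ξ η).add (h' ξ η)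

theorem WLim.neg {A : ι → (K →L[ℂ] K)} {T : K →L[ℂ] K} (h : WLim l A T) :
    WLim l (fun i => -A i) (-T) := fun ξ η => by
  simp only [ContinuousLinearMap.neg_apply, inner_neg_right]
  exact (h ξ η).neg

theorem WLim.sub {A B : ι → (K →L[ℂ] K)} {T S : K →L[ℂ] K} (h : WLim l A T)
    (h' : WLim l B S) : WLim l (fun i => A i - B i) (T - S) := fun ξ η => by
  simp only [ContinuousLinearMap.sub_apply, inner_sub_right]
  exact (h ξ η).sub (h' ξ η)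

theorem WLim.smul {A : ι → (K →L[ℂ] K)} {T : K →L[ℂ] K} (c : ℂ) (h : WLim l A T) :
    WLim l (fun i => c • A i) (c • T) := fun ξ η => by
  simp only [ContinuousLinearMap.smul_apply, inner_smul_right]
  exact (h ξ η).const_mul c

theorem WLim.sum {κ : Type*} (s : Finset κ) {A : κ → ι → (K →L[ℂ] K)} {T : κ → (K →L[ℂ] K)}
    (h : ∀ j ∈ s, WLim l (A j) (T j)) :
    WLim l (fun i => ∑ j ∈ s, A j i) (∑ j ∈ s, T j) := fun ξ η => by
  simp only [ContinuousLinearMap.sum_apply, inner_sum]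
  exact tendsto_finset_sum _ fun j hj => h j hj ξ η

theorem WLim.mul_left {A : ι → (K →L[ℂ] K)} {T : K →L[ℂ] K} (h : WLim l A T)
    (B : K →L[ℂ] K) : WLim l (fun i => B * A i) (B * T) := fun ξ η => by
  have h1 : ∀ C : K →L[ℂ] K, ⟪η, (B * C) ξ⟫_ℂ = ⟪adjoint B η, C ξ⟫_ℂ := fun C => by
    rw [adjoint_inner_left]
    rfl
  simp only [h1]
  exact h ξ (adjoint B η)

theorem WLim.mul_right {A : ι → (K →L[ℂ] K)} {T : K →L[ℂ] K} (h : WLim l A T)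
    (B : K →L[ℂ] K) : WLim l (fun i => A i * B) (T * B) := fun ξ η => h (B ξ) η

theorem WLim.adj {A : ι → (K →L[ℂ] K)} {T : K →L[ℂ] K} (h : WLim l A T) :
    WLim l (fun i => adjoint (A i)) (adjoint T) := fun ξ η => by
  have h1 : ∀ C : K →L[ℂ] K, ⟪η, adjoint C ξ⟫_ℂ = (starRingEnd ℂ) ⟪ξ, C η⟫_ℂ := fun C => by
    rw [adjoint_inner_right, inner_conj_symm]
  simp only [h1]
  exact (continuous_star.tendsto _).comp (h η ξ)

/-- if the difference goes to `0` weakly, the limits agree -/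
theorem WLim.of_sub {A B : ι → (K →L[ℂ] K)} {T : K →L[ℂ] K} (h : WLim l A T)
    (h' : WLim l (fun i => B i - A i) 0) : WLim l B T := by
  have h1 := h.add h'
  rw [add_zero] at h1
  exact h1.congr fun i => by abel

theorem WLim.comm [l.NeBot] {A : ι → (K →L[ℂ] K)} {T B : K →L[ℂ] K} (h : WLim l A T)
    (hB : ∀ᶠ i in l, A i * B = B * A i) : T * B = B * T :=
  ((h.mul_right B).congr' hB).unique (h.mul_left B)

theorem WLim.comm' [l.NeBot] {A : ι → (K →L[ℂ] K)} {T B : K →L[ℂ] K} (h : WLim l A T)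
    (hB : WLim l (fun i => B * A i - A i * B) 0) : T * B = B * T := by
  have h1 := (h.mul_right B).of_sub (B := fun i => B * A i) hB
  exact h1.unique (h.mul_left B)

/-- lower semicontinuity of the norm of a vector -/
theorem WLim.norm_apply_le [l.NeBot] {A : ι → (K →L[ℂ] K)} {T : K →L[ℂ] K} (h : WLim l A T)
    {C : ℝ} {ξ : K} (hC : ∃ᶠ i in l, ‖A i ξ‖ ≤ C) : ‖T ξ‖ ≤ C := by
  by_contra hcon
  rw [not_le] at hcon
  have hC0 : 0 ≤ C := by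
    obtain ⟨i, hi⟩ := hC.exists
    exact (norm_nonneg _).trans hi
  have hpos : 0 < ‖T ξ‖ := hC0.trans_lt hcon
  have h1 := (h ξ (T ξ)).norm
  have h2 : ‖(⟪T ξ, T ξ⟫_ℂ : ℂ)‖ = ‖T ξ‖ * ‖T ξ‖ := by
    rw [inner_self_eq_norm_sq_to_K]
    simp [sq]
  rw [h2] at h1
  have h3 : ‖T ξ‖ * C < ‖T ξ‖ * ‖T ξ‖ := by nlinarith
  have h4 := h1.eventually (lt_mem_nhds h3)
  obtain ⟨i, hi, hi'⟩ := (hC.and_eventually h4).exists
  have h5 := norm_inner_le_norm (𝕜 := ℂ) (T ξ) (A i ξ)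
  have h6 : ‖T ξ‖ * ‖A i ξ‖ ≤ ‖T ξ‖ * C := mul_le_mul_of_nonneg_left hi (norm_nonneg _)
  linarith

theorem WLim.norm_le [l.NeBot] {A : ι → (K →L[ℂ] K)} {T : K →L[ℂ] K} (h : WLim l A T)
    {C : ℝ} (hC0 : 0 ≤ C) (hC : ∃ᶠ i in l, ‖A i‖ ≤ C) : ‖T‖ ≤ C :=
  ContinuousLinearMap.opNorm_le_bound _ hC0 fun ξ => h.norm_apply_le
    (hC.mono fun i hi => (le_opNorm _ _).trans (mul_le_mul_of_nonneg_right hi (norm_nonneg _)))

/-- the real part of the diagonal -/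
theorem WLim.re {A : ι → (K →L[ℂ] K)} {T : K →L[ℂ] K} (h : WLim l A T) (ξ η : K) :
    Tendsto (fun i => (⟪η, A i ξ⟫_ℂ).re) l (𝓝 (⟪η, T ξ⟫_ℂ).re) :=
  (Complex.continuous_re.tendsto _).comp (h ξ η)

/-- **Bessel/Kadison** -/
theorem WLim.bessel [l.NeBot] {κ : Type*} (s : Finset κ) {A : κ → ι → (K →L[ℂ] K)}
    {T : κ → (K →L[ℂ] K)} (h : ∀ j ∈ s, WLim l (A j) (T j)) {B : ι → (K →L[ℂ] K)}
    {S : K →L[ℂ] K} (hB : WLim l B S) (ξ : K)
    (hle : ∀ᶠ i in l, ∑ j ∈ s, ‖A j i ξ‖ ^ 2 ≤ (⟪ξ, B i ξ⟫_ℂ).re) :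
    ∑ j ∈ s, ‖T j ξ‖ ^ 2 ≤ (⟪ξ, S ξ⟫_ℂ).re := by
  have h1 : Tendsto (fun i => ∑ j ∈ s, (⟪T j ξ, A j i ξ⟫_ℂ).re) l
      (𝓝 (∑ j ∈ s, (⟪T j ξ, T j ξ⟫_ℂ).re)) :=
    tendsto_finset_sum _ fun j hj => (h j hj).re ξ (T j ξ)
  have h2 : ∀ j, (⟪T j ξ, T j ξ⟫_ℂ).re = ‖T j ξ‖ ^ 2 := fun j => by
    rw [inner_self_eq_norm_sq_to_K]
    norm_cast
  simp only [h2] at h1
  have h3 : ∀ᶠ i in l, ∑ j ∈ s, (⟪T j ξ, A j i ξ⟫_ℂ).re ≤
      (∑ j ∈ s, ‖T j ξ‖ ^ 2) / 2 + (⟪ξ, B i ξ⟫_ℂ).re / 2 := by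
    filter_upwards [hle] with i hi
    have h4 : ∀ j ∈ s, (⟪T j ξ, A j i ξ⟫_ℂ).re ≤ ‖T j ξ‖ ^ 2 / 2 + ‖A j i ξ‖ ^ 2 / 2 := by
      intro j _
      have h5 := (Complex.re_le_norm _).trans (norm_inner_le_norm (𝕜 := ℂ) (T j ξ) (A j i ξ))
      nlinarith [sq_nonneg (‖T j ξ‖ - ‖A j i ξ‖)]
    have h6 := Finset.sum_le_sum h4
    rw [Finset.sum_add_distrib, ← Finset.sum_div, ← Finset.sum_div] at h6
    linarith
  have h7 := le_of_tendsto_of_tendsto h1 (tendsto_const_nhds.add ((hB.re ξ ξ).div_const 2)) h3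
  linarith

theorem WLim.nonneg [l.NeBot] {A : ι → (K →L[ℂ] K)} {T : K →L[ℂ] K} (h : WLim l A T)
    (hA : ∀ᶠ i in l, 0 ≤ A i) : 0 ≤ T := by
  rw [ContinuousLinearMap.nonneg_iff_isPositive]
  rw [ContinuousLinearMap.isPositive_iff_complex]
  intro ξ
  have h1 : ∀ᶠ i in l, ((⟪A i ξ, ξ⟫_ℂ).re : ℂ) = ⟪A i ξ, ξ⟫_ℂ ∧ 0 ≤ (⟪A i ξ, ξ⟫_ℂ).re := by
    filter_upwards [hA] with i hi
    rw [ContinuousLinearMap.nonneg_iff_isPositive,
      ContinuousLinearMap.isPositive_iff_complex] at hi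
    exact hi ξ
  have h2 : Tendsto (fun i => ⟪A i ξ, ξ⟫_ℂ) l (𝓝 ⟪T ξ, ξ⟫_ℂ) := by
    have h3 : ∀ C : K →L[ℂ] K, ⟪C ξ, ξ⟫_ℂ = (starRingEnd ℂ) ⟪ξ, C ξ⟫_ℂ := fun C => by
      rw [inner_conj_symm]
    simp only [h3]
    exact (continuous_star.tendsto _).comp (h ξ ξ)
  have h4 : Tendsto (fun i => (⟪A i ξ, ξ⟫_ℂ).re) l (𝓝 (⟪T ξ, ξ⟫_ℂ).re) :=
    (Complex.continuous_re.tendsto _).comp h2
  refine ⟨?_, ge_of_tendsto h4 (h1.mono fun i hi => hi.2)⟩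
  have h5 : Tendsto (fun i => ((⟪A i ξ, ξ⟫_ℂ).re : ℂ)) l (𝓝 ((⟪T ξ, ξ⟫_ℂ).re : ℂ)) :=
    (Complex.continuous_ofReal.tendsto _).comp h4
  exact tendsto_nhds_unique h5 (h2.congr' (h1.mono fun i hi => hi.1.symm))

/-! ### Existence along ultrafilters -/

/-- **Existence of weak ultralimits.** -/
theorem exists_wlim (U : Ultrafilter ι) (A : ι → (K →L[ℂ] K)) (C : ℝ)
    (hA : ∀ i, ‖A i‖ ≤ C) : ∃ T : K →L[ℂ] K, WLim (U : Filter ι) A T := by
  have hC0 : ∀ i : ι, 0 ≤ C := fun i => (norm_nonneg _).trans (hA i)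
  have hex : ∀ v w : K, ∃ z : ℂ, ‖z‖ ≤ C * ‖v‖ * ‖w‖ ∧
      Tendsto (fun i => ⟪A i v, w⟫_ℂ) (U : Filter ι) (𝓝 z) := by
    intro v w
    have h1 : ∀ i, ⟪A i v, w⟫_ℂ ∈ Metric.closedBall (0 : ℂ) (C * ‖v‖ * ‖w‖) := fun i => by
      rw [mem_closedBall_zero_iff]
      refine (norm_inner_le_norm _ _).trans ?_
      have := (le_opNorm (A i) v).trans (mul_le_mul_of_nonneg_right (hA i) (norm_nonneg v))
      gcongr
    obtain ⟨z, hz, hz'⟩ := (isCompact_closedBall (0 : ℂ) (C * ‖v‖ * ‖w‖)).ultrafilter_le_nhds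
      (U.map fun i => ⟪A i v, w⟫_ℂ) (by
        rw [le_principal_iff]
        exact Filter.mem_map.2 (Filter.univ_mem' h1))
    exact ⟨z, mem_closedBall_zero_iff.1 hz, hz'⟩
  choose L hL hL' using hex
  have hC : 0 ≤ C := by
    obtain ⟨i⟩ : Nonempty ι := (U : Filter ι).nonempty_of_neBot
    exact hC0 i
  let B₀ : K →ₗ⋆[ℂ] K →ₗ[ℂ] ℂ := LinearMap.mk₂'ₛₗ (starRingEnd ℂ) (RingHom.id ℂ) L
    (fun v v' w => tendsto_nhds_unique (hL' (v + v') w) (by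
      simp only [map_add, inner_add_left]
      exact (hL' v w).add (hL' v' w)))
    (fun c v w => tendsto_nhds_unique (hL' (c • v) w) (by
      simp only [map_smul, inner_smul_left]
      exact (hL' v w).const_mul _))
    (fun v w w' => tendsto_nhds_unique (hL' v (w + w')) (by
      simp only [inner_add_right]
      exact (hL' v w).add (hL' v w')))
    (fun c v w => tendsto_nhds_unique (hL' v (c • w)) (by
      simp only [inner_smul_right]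
      exact (hL' v w).const_mul _))
  let B : K →L⋆[ℂ] K →L[ℂ] ℂ := LinearMap.mkContinuous₂ B₀ C (fun v w => hL v w)
  refine ⟨InnerProductSpace.continuousLinearMapOfBilin B, fun ξ η => ?_⟩
  have h1 : ⟪InnerProductSpace.continuousLinearMapOfBilin B ξ, η⟫_ℂ = L ξ η := by
    rw [InnerProductSpace.continuousLinearMapOfBilin_apply]
    rfl
  have h2 : ∀ D : K →L[ℂ] K, ⟪η, D ξ⟫_ℂ = (starRingEnd ℂ) ⟪D ξ, η⟫_ℂ := fun D => by
    rw [inner_conj_symm]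
  simp only [h2]
  rw [h1]
  exact (continuous_star.tendsto _).comp (hL' ξ η)

/-- linear families -/
theorem exists_wlim_lin {V : Type*} [AddCommGroup V] [Module ℂ V] (U : Ultrafilter ι)
    (A : ι → V →ₗ[ℂ] (K →L[ℂ] K)) (hA : ∀ v, ∃ C : ℝ, ∀ i, ‖A i v‖ ≤ C) :
    ∃ E : V →ₗ[ℂ] (K →L[ℂ] K), ∀ v, WLim (U : Filter ι) (fun i => A i v) (E v) := by
  have hex : ∀ v, ∃ T : K →L[ℂ] K, WLim (U : Filter ι) (fun i => A i v) T := fun v => by
    obtain ⟨C, hC⟩ := hA v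
    exact exists_wlim U _ C hC
  choose T hT using hex
  refine ⟨{ toFun := T, map_add' := fun v w => ?_, map_smul' := fun c v => ?_ }, hT⟩
  · refine (hT (v + w)).unique (((hT v).add (hT w)).congr fun i => ?_)
    rw [map_add]
  · refine (hT (c • v)).unique (((hT v).smul c).congr fun i => ?_)
    rw [map_smul]

end Vale.Agent.P092.H494.PW
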