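import Vale.Agent.P092.SD.Defs
import Vale.Agent.P092.H494.PWl

/-!
P092, TEAM P (helper494), row [P-I1]: exact incidence for weak limits of positive operators, from
a uniform trace bound; the trace bound from a count.
-/

set_option linter.all false

open scoped InnerProductSpace ENNReal ComplexOrder
open Filter Topology ContinuousLinearMap

namespace Vale.Agent.P092.H494.PI

open Vale.Agent.P092.RC (Cm TRN Moore Pic)
open Vale.Agent.P092.SD (Ms)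
open Vale.Agent.P092.H494.PW

section sqrt

variable {K : Type} [NormedAddCommGroup K] [InnerProductSpace ℂ K] [CompleteSpace K]

/-- the square root -/
theorem exists_sqrt {E : K →L[ℂ] K} (hE : 0 ≤ E) : ∃ e : K →L[ℂ] K, adjoint e = e ∧ e * e = E ∧
    ∀ B : K →L[ℂ] K, E * B = B * E → e * B = B * e := by
  refine ⟨CFC.sqrt E, ?_, CFC.sqrt_mul_sqrt_self E hE, fun B hB => ?_⟩
  · exact (IsSelfAdjoint.of_nonneg (CFC.sqrt_nonneg E)).star_eq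
  · exact (Commute.cfcₙ_nnreal (a := E) (b := B) hB NNReal.sqrt).eq

theorem enorm_sq (x : K) : ‖x‖ₑ ^ 2 = ENNReal.ofReal (‖x‖ ^ 2) := by
  rw [← ofReal_norm_eq_enorm, ENNReal.ofReal_pow (norm_nonneg _)]

theorem re_adj_mul (a : K →L[ℂ] K) (v : K) : (⟪v, (adjoint a * a) v⟫_ℂ).re = ‖a v‖ ^ 2 := by
  change (⟪v, adjoint a (a v)⟫_ℂ).re = _
  rw [adjoint_inner_right, inner_self_eq_norm_sq_to_K]
  norm_cast

theorem adj_mul_nonneg (a : K →L[ℂ] K) : 0 ≤ adjoint a * a := star_mul_self_nonneg a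

theorem norm_adj_mul_le (a : K →L[ℂ] K) : ‖adjoint a * a‖ ≤ ‖a‖ ^ 2 := by
  refine (norm_mul_le _ _).trans (le_of_eq ?_)
  rw [LinearIsometryEquiv.norm_map, sq]

end sqrt

section main

variable {G Γ K : Type} [Group G] [TopologicalSpace G] [Group Γ] [NormedAddCommGroup K]
  [InnerProductSpace ℂ K] [CompleteSpace K] {π : G →* (K →L[ℂ] K)} {lam : Γ →* (K →L[ℂ] K)}
  {W : Set (K →L[ℂ] K)} {Ω : K}

theorem cm_mul {S T : K →L[ℂ] K} (hS : Cm W S) (hT : Cm W T) : Cm W (S * T) := fun w hw => by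
  rw [mul_assoc, hT w hw, ← mul_assoc, hS w hw, mul_assoc]

theorem cm_adj (hW : ∀ w ∈ W, adjoint w ∈ W) {T : K →L[ℂ] K} (hT : Cm W T) :
    Cm W (adjoint T) := fun w hw => by
  have h1 := congrArg adjoint (hT _ (hW w hw))
  have h2 : adjoint (T * adjoint w) = w * adjoint T := by
    change adjoint (T.comp (adjoint w)) = _
    rw [adjoint_comp, adjoint_adjoint]
    rfl
  have h3 : adjoint (adjoint w * T) = adjoint T * w := by
    change adjoint ((adjoint w).comp T) = _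
    rw [adjoint_comp, adjoint_adjoint]
    rfl
  rw [h2, h3] at h1
  exact h1.symm

theorem cm_conj (hWP : ∀ w ∈ W, ∀ g, π g * w * π g⁻¹ ∈ W) {T : K →L[ℂ] K} (hT : Cm W T) (g : G) :
    Cm W (π g * T * π g⁻¹) := fun w hw => by
  have h1 := hT _ (hWP w hw g⁻¹)
  rw [inv_inv] at h1
  have e : π g * π g⁻¹ = 1 := by rw [← map_mul, mul_inv_cancel, map_one]
  calc π g * T * π g⁻¹ * w = π g * T * π g⁻¹ * w * (π g * π g⁻¹) := by rw [e, mul_one]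
    _ = π g * (T * (π g⁻¹ * w * π g)) * π g⁻¹ := by simp only [mul_assoc]
    _ = π g * ((π g⁻¹ * w * π g) * T) * π g⁻¹ := by rw [h1]
    _ = (π g * π g⁻¹) * w * (π g * T * π g⁻¹) := by simp only [mul_assoc]
    _ = _ := by rw [e, one_mul]

theorem wlim_cm {ι : Type*} {l : Filter ι} [l.NeBot] {A : ι → (K →L[ℂ] K)} {T : K →L[ℂ] K}
    (h : WLim l A T) (hA : ∀ᶠ i in l, Cm W (A i)) : Cm W T :=
  fun w hw => h.comm (hA.mono fun i hi => hi w hw)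

/-- **lower semicontinuity of the trace** -/
theorem trn_lim {ι : Type*} {l : Filter ι} {a : ι → (K →L[ℂ] K)} {T e X : K →L[ℂ] K}
    (h : WLim l (fun i => adjoint (a i) * a i) T) (he : adjoint e = e) (he2 : e * e = T)
    {N : ℝ≥0∞} (hN : ∃ᶠ i in l, TRN lam Ω (a i * X) ≤ N) : TRN lam Ω (e * X) ≤ N := by
  rcases eq_or_ne N ∞ with rfl | hN'
  · exact le_top
  rw [TRN, ENNReal.tsum_eq_iSup_sum]
  refine iSup_le fun F => ?_
  have e1 : ∀ (b : K →L[ℂ] K), ∑ γ ∈ F, ‖(b * X) (lam γ Ω)‖ₑ ^ 2 =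
      ENNReal.ofReal (∑ γ ∈ F, ‖b (X (lam γ Ω))‖ ^ 2) := fun b => by
    rw [ENNReal.ofReal_sum_of_nonneg fun γ _ => sq_nonneg _]
    exact Finset.sum_congr rfl fun γ _ => enorm_sq _
  rw [e1]
  have h1 : Tendsto (fun i => ∑ γ ∈ F, ‖a i (X (lam γ Ω))‖ ^ 2) l
      (𝓝 (∑ γ ∈ F, ‖e (X (lam γ Ω))‖ ^ 2)) := by
    refine tendsto_finset_sum _ fun γ _ => ?_
    have h2 := h.re (X (lam γ Ω)) (X (lam γ Ω))
    have h3 : T = adjoint e * e := by rw [he, he2]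
    rw [h3, re_adj_mul] at h2
    exact h2.congr fun i => re_adj_mul _ _
  have h4 : ∃ᶠ i in l, ∑ γ ∈ F, ‖a i (X (lam γ Ω))‖ ^ 2 ≤ N.toReal := by
    refine hN.mono fun i hi => ?_
    have h5 : ∑ γ ∈ F, ‖(a i * X) (lam γ Ω)‖ₑ ^ 2 ≤ N := (ENNReal.sum_le_tsum F).trans hi
    rw [e1] at h5
    exact (ENNReal.ofReal_le_iff_le_toReal hN').1 h5
  exact (ENNReal.ofReal_le_iff_le_toReal hN').2 (le_of_tendsto_of_frequently h1 h4)

/-- **[P-I1], abstract form.** -/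
theorem i1_zero (hp : Pic π lam W Ω) {ι κ : Type*} {l : Filter ι} [l.NeBot] {l' : Filter κ}
    [l'.NeBot] {a : ι → (K →L[ℂ] K)} {b : κ → (K →L[ℂ] K)} {E F : K →L[ℂ] K}
    (ha : ∀ i, Cm W (a i)) (hb : ∀ j, Cm W (b j))
    (hE : WLim l (fun i => adjoint (a i) * a i) E)
    (hF : WLim l' (fun j => adjoint (b j) * b j) F) {N : ℝ≥0∞} (hN : N < ∞)
    (h : ∃ᶠ j in l', ∃ᶠ i in l, TRN lam Ω (a i * adjoint (b j)) ≤ N)
    {S : Set G} (hS : Moore S) (hES : ∀ g ∈ S, E * π g = π g * E)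
    (hFS : ∀ g ∈ S, F * π g = π g * F) : E * F = 0 := by
  have hE0 : 0 ≤ E := hE.nonneg (Eventually.of_forall fun i => adj_mul_nonneg _)
  have hF0 : 0 ≤ F := hF.nonneg (Eventually.of_forall fun i => adj_mul_nonneg _)
  obtain ⟨e, he, he2, hec⟩ := exists_sqrt hE0
  obtain ⟨f, hf, hf2, hfc⟩ := exists_sqrt hF0
  have hEW : Cm W E := wlim_cm hE (Eventually.of_forall fun i =>
    cm_mul (cm_adj hp.Wadj (ha i)) (ha i))
  have hFW : Cm W F := wlim_cm hF (Eventually.of_forall fun i =>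
    cm_mul (cm_adj hp.Wadj (hb i)) (hb i))
  have heW : Cm W e := fun w hw => hec w (hEW w hw)
  have hfW : Cm W f := fun w hw => hfc w (hFW w hw)
  have h1 : ∃ᶠ j in l', TRN lam Ω (b j * e) ≤ N := by
    refine h.mono fun j hj => ?_
    have h2 := trn_lim (X := adjoint (b j)) hE he he2 hj
    rw [← hp.tr_adj _ (cm_mul heW (cm_adj hp.Wadj (hb j)))] at h2
    have h3 : adjoint (e * adjoint (b j)) = b j * e := by
      change adjoint (e.comp (adjoint (b j))) = _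
      rw [adjoint_comp, adjoint_adjoint, he]
      rfl
    rwa [h3] at h2
  have h4 : TRN lam Ω (f * e) ≤ N := trn_lim (X := e) hF hf hf2 h1
  have h5 : f * e = 0 := by
    refine hp.hs_erg S hS _ (cm_mul hfW heW) (h4.trans_lt hN) fun g hg => ?_
    rw [mul_assoc, hec _ (hES g hg), ← mul_assoc, hfc _ (hFS g hg), mul_assoc]
  have h6 : e * f = 0 := by
    have h7 := congrArg adjoint h5
    rw [map_zero] at h7
    rw [← h7]
    change _ = adjoint (f.comp e)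
    rw [adjoint_comp, he, hf]
    rfl
  calc E * F = e * (e * f) * f := by rw [← he2, ← hf2]; simp only [mul_assoc]
    _ = 0 := by rw [h6, mul_zero, zero_mul]

end main

/-! ### The count -/

section count

variable {G Γ K : Type} [Group G] [TopologicalSpace G] [Group Γ] [NormedAddCommGroup K]
  [InnerProductSpace ℂ K] [CompleteSpace K] {π : G →* (K →L[ℂ] K)} {lam : Γ →* (K →L[ℂ] K)}
  {W : Set (K →L[ℂ] K)} {Ω : K} {m : Set Γ → (K →L[ℂ] K)}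

theorem unitary_norm {D : Type} [Group D] {u : D →* (K →L[ℂ] K)}
    (hu : ∀ g, adjoint (u g) = u g⁻¹) (g : D) (ξ : K) : ‖u g ξ‖ = ‖ξ‖ := by
  have h1 : ⟪u g ξ, u g ξ⟫_ℂ = ⟪ξ, ξ⟫_ℂ := by
    rw [← adjoint_inner_left, hu]
    congr 1
    change (u g⁻¹ * u g) ξ = ξ
    rw [← map_mul, inv_mul_cancel, map_one]
    rfl
  rw [inner_self_eq_norm_sq_to_K, inner_self_eq_norm_sq_to_K] at h1
  have h2 : ‖u g ξ‖ ^ 2 = ‖ξ‖ ^ 2 := by exact_mod_cast h1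
  exact (pow_left_inj₀ (norm_nonneg _) (norm_nonneg _) two_ne_zero).1 h2

theorem ms_empty (hM : Ms lam W Ω m) : m ∅ = 0 := by
  have h1 : m Set.univ * m ∅ = m ∅ := by rw [← hM.inf, Set.univ_inter]
  have h2 : m Set.univ = 1 - m ∅ := by rw [← Set.compl_empty, hM.compl]
  have h3 : m ∅ * m ∅ = m ∅ := by rw [← hM.inf, Set.empty_inter]
  rw [h2, sub_mul, one_mul, h3, sub_self] at h1
  exact h1.symm

theorem ms_union (hM : Ms lam W Ω m) {A B : Set Γ} (h : Disjoint A B) :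
    m (A ∪ B) = m A + m B := by
  have h1 : m A * m B = 0 := by
    rw [← hM.inf, Set.disjoint_iff_inter_eq_empty.1 h, ms_empty hM]
  have h2 : A ∪ B = (Aᶜ ∩ Bᶜ)ᶜ := by rw [Set.compl_inter, compl_compl, compl_compl]
  rw [h2, hM.compl, hM.inf, hM.compl, hM.compl, sub_mul, one_mul, mul_sub, mul_one, h1]
  abel

theorem ms_finset (hM : Ms lam W Ω m) (F : Finset Γ) : m (F : Set Γ) = ∑ γ ∈ F, m {γ} := by
  classical
  induction F using Finset.induction_on with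
  | empty => rw [Finset.coe_empty, ms_empty hM, Finset.sum_empty]
  | insert a s ha ih =>
    rw [Finset.coe_insert, Finset.sum_insert ha, Set.insert_eq, ms_union hM
      (Set.disjoint_singleton_left.2 (by simpa using ha)), ih]

theorem ms_idem (hM : Ms lam W Ω m) (S : Set Γ) : m S * m S = m S := by
  rw [← hM.inf, Set.inter_self]

theorem ms_re (hM : Ms lam W Ω m) (S : Set Γ) (v : K) : (⟪v, m S v⟫_ℂ).re = ‖m S v‖ ^ 2 := by
  have h1 : m S = adjoint (m S) * m S := by rw [hM.adj, ms_idem hM]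
  conv_lhs => rw [h1]
  exact re_adj_mul _ _

theorem ms_norm_sq (hM : Ms lam W Ω m) (S : Set Γ) (v : K) :
    ‖v‖ ^ 2 = ‖m S v‖ ^ 2 + ‖m Sᶜ v‖ ^ 2 := by
  rw [← ms_re hM, ← ms_re hM, hM.compl, ← Complex.add_re, ← inner_add_right]
  have h1 : m S v + (1 - m S) v = v := by
    change m S v + (v - m S v) = v
    abel
  rw [h1, inner_self_eq_norm_sq_to_K]
  norm_cast

theorem ms_fin_norm (hM : Ms lam W Ω m) (F : Finset Γ) (v : K) :
    ‖m (F : Set Γ) v‖ ^ 2 = ∑ γ ∈ F, ‖m {γ} v‖ ^ 2 := by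
  rw [← ms_re hM, ms_finset hM, ContinuousLinearMap.sum_apply, inner_sum, Complex.re_sum]
  exact Finset.sum_congr rfl fun γ _ => ms_re hM _ _

/-- **Parseval** -/
theorem ms_parseval (hM : Ms lam W Ω m) (v : K) : ∑' γ, ‖m {γ} v‖ₑ ^ 2 = ‖v‖ₑ ^ 2 := by
  have e1 : ∀ F : Finset Γ, ∑ γ ∈ F, ‖m {γ} v‖ₑ ^ 2 =
      ENNReal.ofReal (‖m (F : Set Γ) v‖ ^ 2) := fun F => by
    rw [ms_fin_norm hM, ENNReal.ofReal_sum_of_nonneg fun γ _ => sq_nonneg _]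
    exact Finset.sum_congr rfl fun γ _ => enorm_sq _
  refine le_antisymm ?_ ?_
  · rw [ENNReal.tsum_eq_iSup_sum]
    refine iSup_le fun F => ?_
    rw [e1, enorm_sq]
    refine ENNReal.ofReal_le_ofReal ?_
    have := ms_norm_sq hM (F : Set Γ) v
    nlinarith [sq_nonneg ‖m ((F : Set Γ))ᶜ v‖]
  · refine ENNReal.le_of_forall_pos_le_add fun ε hε _ => ?_
    obtain ⟨F, hF⟩ := hM.fin v (Real.sqrt ε) (Real.sqrt_pos.2 hε)
    refine le_trans ?_ (add_le_add_left (ENNReal.sum_le_tsum F) _)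
    rw [e1, enorm_sq, ms_norm_sq hM (F : Set Γ) v, ENNReal.ofReal_add (sq_nonneg _) (sq_nonneg _)]
    gcongr
    have h1 : ‖m ((F : Set Γ))ᶜ v‖ ^ 2 ≤ (ε : ℝ) := by
      calc _ ≤ Real.sqrt ε ^ 2 := pow_le_pow_left₀ (norm_nonneg _) hF 2
        _ = ε := Real.sq_sqrt hε.le
    calc ENNReal.ofReal (‖m ((F : Set Γ))ᶜ v‖ ^ 2) ≤ ENNReal.ofReal ε :=
          ENNReal.ofReal_le_ofReal h1
      _ = ε := ENNReal.ofReal_coe_nnreal

theorem ms_lam (hM : Ms lam W Ω m) (γ ξ : Γ) : m {γ * ξ} * lam γ = lam γ * m {ξ} := by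
  have h2 := hM.cov γ {ξ}
  rw [Set.image_singleton] at h2
  rw [← h2, mul_assoc, ← map_mul, inv_mul_cancel, map_one, mul_one]

theorem ms_om (hM : Ms lam W Ω m) (γ : Γ) : m {γ} (lam γ Ω) = lam γ Ω := by
  have h1 := ms_lam hM γ 1
  rw [mul_one] at h1
  change (m {γ} * lam γ) Ω = _
  rw [h1]
  change lam γ (m {1} Ω) = _
  rw [hM.om]

/-- a diagonal operator -/
def Dg (m : Set Γ → (K →L[ℂ] K)) (f : Γ → ℂ) (X : K →L[ℂ] K) : Prop :=
  ∀ γ, m {γ} * X = f γ • m {γ}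

theorem Dg.adj_om (hM : Ms lam W Ω m) {f : Γ → ℂ} {X : K →L[ℂ] K} (hX : Dg m f X) (γ : Γ) :
    adjoint X (lam γ Ω) = (starRingEnd ℂ) (f γ) • lam γ Ω := by
  have h1 := congrArg adjoint (hX γ)
  have h2 : adjoint (m {γ} * X) = adjoint X * m {γ} := by
    change adjoint ((m {γ}).comp X) = _
    rw [adjoint_comp, hM.adj]
    rfl
  rw [h2, map_smulₛₗ, hM.adj] at h1
  have h3 := congrArg (fun T : K →L[ℂ] K => T (lam γ Ω)) h1
  change adjoint X (m {γ} (lam γ Ω)) = (starRingEnd ℂ) (f γ) • m {γ} (lam γ Ω) at h3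
  rwa [ms_om hM] at h3

theorem Dg.norm_sq (hM : Ms lam W Ω m) {f : Γ → ℂ} {X : K →L[ℂ] K} (hX : Dg m f X) (v : K) :
    ‖X v‖ₑ ^ 2 = ∑' η, ‖f η‖ₑ ^ 2 * ‖m {η} v‖ₑ ^ 2 := by
  rw [← ms_parseval hM]
  refine tsum_congr fun η => ?_
  have h1 : m {η} (X v) = f η • m {η} v := by
    change (m {η} * X) v = _
    rw [hX η]
    rfl
  rw [h1, enorm_smul, mul_pow]

/-- **The trace of the product of two conjugated diagonal operators.** -/
theorem trn_dg (hP : ∀ g, adjoint (π g) = π g⁻¹) (hL : ∀ γ, adjoint (lam γ) = lam γ⁻¹)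
    (hcomm : ∀ g γ, π g * lam γ = lam γ * π g) (hWadj : ∀ w ∈ W, adjoint w ∈ W)
    (hWP : ∀ w ∈ W, ∀ g, π g * w * π g⁻¹ ∈ W) (hΩ : ‖Ω‖ = 1)
    (htr : ∀ T, Cm W T → ∀ g, TRN lam Ω (π g * T * π g⁻¹) = TRN lam Ω T)
    (hM : Ms lam W Ω m) {f g : Γ → ℂ} {X Y : K →L[ℂ] K} (hX : Dg m f X) (hY : Dg m g Y)
    (hXW : Cm W X) (hYW : Cm W Y) {c : ℝ≥0∞}
    (hc : ∀ ξ, ∑' γ, ‖g γ‖ₑ ^ 2 * ‖f (γ * ξ)‖ₑ ^ 2 ≤ c) (x y : G) :
    TRN lam Ω (π x⁻¹ * X * π x * adjoint (π y⁻¹ * Y * π y)) ≤ c := by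
  have hcX : Cm W (π x⁻¹ * X * π x) := by
    have := cm_conj hWP hXW x⁻¹
    rwa [inv_inv] at this
  have hcY : Cm W (π y⁻¹ * Y * π y) := by
    have := cm_conj hWP hYW y⁻¹
    rwa [inv_inv] at this
  rw [← htr _ (cm_mul hcX (cm_adj hWadj hcY)) y]
  have e1 : adjoint (π y⁻¹ * Y * π y) = π y⁻¹ * adjoint Y * π y := by
    change adjoint (((π y⁻¹).comp Y).comp (π y)) = _
    rw [adjoint_comp, adjoint_comp, hP, hP, inv_inv]
    rfl
  have e2 : π y * (π x⁻¹ * X * π x * adjoint (π y⁻¹ * Y * π y)) * π y⁻¹ =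
      π (y * x⁻¹) * (X * π (x * y⁻¹) * adjoint Y) := by
    have e : π y * π y⁻¹ = 1 := by rw [← map_mul, mul_inv_cancel, map_one]
    rw [e1, map_mul, map_mul]
    calc _ = π y * π x⁻¹ * (X * (π x * π y⁻¹) * adjoint Y) * (π y * π y⁻¹) := by
          simp only [mul_assoc]
      _ = _ := by rw [e, mul_one]
  rw [e2]
  set z := x * y⁻¹ with hz
  have e3 : ∀ γ, ‖(π (y * x⁻¹) * (X * π z * adjoint Y)) (lam γ Ω)‖ₑ ^ 2 =
      ∑' ξ, ‖g γ‖ₑ ^ 2 * ‖f (γ * ξ)‖ₑ ^ 2 * ‖m {ξ} (π z Ω)‖ₑ ^ 2 := fun γ => by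
    have h1 : ‖(π (y * x⁻¹) * (X * π z * adjoint Y)) (lam γ Ω)‖ₑ =
        ‖g γ‖ₑ * ‖X (lam γ (π z Ω))‖ₑ := by
      change ‖π (y * x⁻¹) (X (π z (adjoint Y (lam γ Ω))))‖ₑ = _
      rw [← ofReal_norm_eq_enorm, unitary_norm hP, ofReal_norm_eq_enorm, hY.adj_om hM, map_smul,
        map_smul, enorm_smul]
      congr 1
      · rw [← ofReal_norm_eq_enorm, RCLike.norm_conj, ofReal_norm_eq_enorm]
      · change ‖X ((π z * lam γ) Ω)‖ₑ = _
        rw [hcomm]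
        rfl
    rw [h1, mul_pow, hX.norm_sq hM, ← ENNReal.tsum_mul_left,
      ← (Equiv.mulLeft γ).tsum_eq]
    refine tsum_congr fun ξ => ?_
    have h2 : ‖m {γ * ξ} (lam γ (π z Ω))‖ₑ = ‖m {ξ} (π z Ω)‖ₑ := by
      change ‖(m {γ * ξ} * lam γ) (π z Ω)‖ₑ = _
      rw [ms_lam hM]
      change ‖lam γ (m {ξ} (π z Ω))‖ₑ = _
      rw [← ofReal_norm_eq_enorm, unitary_norm hL, ofReal_norm_eq_enorm]
    simp only [Equiv.coe_mulLeft]
    rw [h2, mul_assoc]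
  rw [TRN, tsum_congr e3, ENNReal.tsum_comm]
  calc ∑' ξ, ∑' γ, ‖g γ‖ₑ ^ 2 * ‖f (γ * ξ)‖ₑ ^ 2 * ‖m {ξ} (π z Ω)‖ₑ ^ 2
      = ∑' ξ, (∑' γ, ‖g γ‖ₑ ^ 2 * ‖f (γ * ξ)‖ₑ ^ 2) * ‖m {ξ} (π z Ω)‖ₑ ^ 2 :=
        tsum_congr fun ξ => ENNReal.tsum_mul_right
    _ ≤ ∑' ξ, c * ‖m {ξ} (π z Ω)‖ₑ ^ 2 := by
        refine ENNReal.tsum_le_tsum fun ξ => ?_
        gcongr
        exact hc ξ
    _ = c * ‖π z Ω‖ₑ ^ 2 := by rw [ENNReal.tsum_mul_left, ms_parseval hM]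
    _ = c := by
        rw [enorm_sq, unitary_norm hP, hΩ]
        simp

/-- the hypothesis of `trn_dg` from a bounded overlap -/
theorem count_le {f g : Γ → ℂ} {A B : ℝ} (hA : 0 ≤ A) (hB : 0 ≤ B) (hf : ∀ γ, ‖f γ‖ ≤ A)
    (hg : ∀ γ, ‖g γ‖ ≤ B) {N : ℕ}
    (hN : ∀ ξ : Γ, ∀ S : Finset Γ, (∀ γ ∈ S, g γ ≠ 0 ∧ f (γ * ξ) ≠ 0) → S.card ≤ N) (ξ : Γ) :
    ∑' γ, ‖g γ‖ₑ ^ 2 * ‖f (γ * ξ)‖ₑ ^ 2 ≤ N * ENNReal.ofReal (B ^ 2 * A ^ 2) := by
  classical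
  rw [ENNReal.tsum_eq_iSup_sum]
  refine iSup_le fun F => ?_
  have h1 : ∑ γ ∈ F, ‖g γ‖ₑ ^ 2 * ‖f (γ * ξ)‖ₑ ^ 2 ≤
      ∑ γ ∈ F.filter (fun γ => g γ ≠ 0 ∧ f (γ * ξ) ≠ 0), ENNReal.ofReal (B ^ 2 * A ^ 2) := by
    rw [Finset.sum_filter]
    refine Finset.sum_le_sum fun γ _ => ?_
    split_ifs with h
    · rw [ENNReal.ofReal_mul (sq_nonneg _), ENNReal.ofReal_pow hB, ENNReal.ofReal_pow hA]
      gcongr
      · rw [← ofReal_norm_eq_enorm]; exact ENNReal.ofReal_le_ofReal (hg γ)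
      · rw [← ofReal_norm_eq_enorm]; exact ENNReal.ofReal_le_ofReal (hf _)
    · rw [not_and_or, not_not, not_not] at h
      rcases h with h | h
      · rw [h]; simp
      · rw [h]; simp
  refine h1.trans ?_
  rw [Finset.sum_const, nsmul_eq_mul]
  gcongr
  exact hN ξ _ fun γ hγ => (Finset.mem_filter.1 hγ).2

end count

end Vale.Agent.P092.H494.PI
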