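import Vale.Agent.P092.H859.CLK
import Vale.Agent.P092.H494.PI1
import Vale.Agent.P092.SP.UL

/-!
P092, TEAM P (helper494), row [P-I1], part 2: exact incidence for the limit maps of the engine, in
the letters `PC mp π` of `H859`.
-/

set_option linter.all false

open scoped InnerProductSpace ENNReal ComplexOrder
open Filter Topology ContinuousLinearMap

namespace Vale.Agent.P092.H494.PI

open Vale.Agent.P092.RC (Cm TRN Moore Pic)
open Vale.Agent.P092.SD (Ms)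
open Vale.Agent.P092.H494.PW
open Vale.Agent.P092.H859.CL (Fn st PF PC mc Rep mc_real PC_real)
open Vale.Agent.P092.H553 (ind ind_nonneg ind_le_one abs_ind_le ind_pos ind_neg)
open Vale.Agent.P092.SP (UL)

variable {G Γ K : Type} [Group G] [TopologicalSpace G] [Group Γ] [NormedAddCommGroup K]
  [InnerProductSpace ℂ K] [CompleteSpace K] {π : G →* (K →L[ℂ] K)} {lam : Γ →* (K →L[ℂ] K)}
  {W : Set (K →L[ℂ] K)} {Ω : K} {mp : (Γ → ℝ) → (K →L[ℂ] K)}

/-- the multiplication operator of `F` is diagonal -/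
theorem dg_mp (h : Fn mp) {F : Γ → ℝ} {C : ℝ} (hF : ∀ g, |F g| ≤ C) :
    Dg (st mp) (fun g => (F g : ℂ)) (mp F) := by
  intro γ
  rw [st, ← h.mul (abs_ind_le _) hF, ← h.smul (F γ) (abs_ind_le _)]
  congr 1
  funext g
  by_cases hg : g = γ
  · rw [hg]
    ring
  · rw [ind_neg (P := fun g => g ∈ ({γ} : Set Γ)) (by simpa using hg), zero_mul, mul_zero]

theorem cm_mp (h : Fn mp) (hmW : ∀ a ∈ W, ∀ F : Γ → ℝ, (∀ g, |F g| ≤ 1) → a * mp F = mp F * a)
    {F : Γ → ℝ} {C : ℝ} (hF : ∀ g, |F g| ≤ C) : Cm W (mp F) := by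
  intro a ha
  have h1 := Vale.Agent.P092.H859.CL.scale_le hF
  have h2 := hmW a ha (fun g => (|C| + 1)⁻¹ * F g) h1
  have e1 : mp F = ((|C| + 1 : ℝ) : ℂ) • mp fun g => (|C| + 1)⁻¹ * F g := by
    rw [← h.smul _ h1, ← Vale.Agent.P092.H859.CL.scale_eq]
  rw [e1, mul_smul_comm, smul_mul_assoc, h2]

theorem rep_of (hP : ∀ g, adjoint (π g) = π g⁻¹) : Rep (fun g => π g) :=
  ⟨fun v w => map_mul π v w, hP⟩

/-- `PF u = adjoint (PF √u) * PF √u` -/
theorem pf_sqrt (hP : ∀ g, adjoint (π g) = π g⁻¹) (h : Fn mp) {u : Γ → ℝ} (hu0 : ∀ g, 0 ≤ u g)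
    {C : ℝ} (hu : ∀ g, u g ≤ C) (x : G) :
    adjoint (π x⁻¹ * mp (fun g => Real.sqrt (u g)) * π x) *
      (π x⁻¹ * mp (fun g => Real.sqrt (u g)) * π x) = PF mp (fun g => π g) x u := by
  have h2 : ∀ g, |Real.sqrt (u g)| ≤ Real.sqrt C := fun g => by
    rw [abs_of_nonneg (Real.sqrt_nonneg _)]
    exact Real.sqrt_le_sqrt (hu g)
  have e : π x * π x⁻¹ = 1 := by rw [← map_mul, mul_inv_cancel, map_one]
  have e1 : adjoint (π x⁻¹ * mp (fun g => Real.sqrt (u g)) * π x) =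
      π x⁻¹ * mp (fun g => Real.sqrt (u g)) * π x := by
    change adjoint (((π x⁻¹).comp (mp fun g => Real.sqrt (u g))).comp (π x)) = _
    rw [adjoint_comp, adjoint_comp, hP, hP, inv_inv, h.adj h2]
    rfl
  have e2 : mp u = mp (fun g => Real.sqrt (u g)) * mp (fun g => Real.sqrt (u g)) := by
    rw [← h.mul h2 h2]
    congr 1
    funext g
    exact (Real.mul_self_sqrt (hu0 g)).symm
  rw [e1, PF, e2]
  calc π x⁻¹ * mp (fun g => Real.sqrt (u g)) * π x *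
        (π x⁻¹ * mp (fun g => Real.sqrt (u g)) * π x)
      = π x⁻¹ * mp (fun g => Real.sqrt (u g)) * (π x * π x⁻¹) *
        mp (fun g => Real.sqrt (u g)) * π x := by simp only [mul_assoc]
    _ = _ := by rw [e, mul_one]; simp only [mul_assoc]

/-- the trace bound for the square roots -/
theorem trn_PF (hp : Pic π lam W Ω) (h : Fn mp) (hM : Ms lam W Ω (st mp))
    {u v : Γ → ℝ} {A B : ℝ} (hu : ∀ g, |u g| ≤ A) (hv : ∀ g, |v g| ≤ B) (hA : 0 ≤ A)
    (hB : 0 ≤ B) (cu : Cm W (mp u)) (cv : Cm W (mp v)) {N : ℕ}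
    (hN : ∀ ξ : Γ, ∀ S : Finset Γ, (∀ γ ∈ S, v γ ≠ 0 ∧ u (γ * ξ) ≠ 0) → S.card ≤ N) (x y : G) :
    TRN lam Ω (π x⁻¹ * mp u * π x * adjoint (π y⁻¹ * mp v * π y)) ≤
      N * ENNReal.ofReal (B ^ 2 * A ^ 2) := by
  have hf : ∀ g, ‖((u g : ℝ) : ℂ)‖ ≤ A := fun g => by rw [Complex.norm_real]; exact hu g
  have hg : ∀ g, ‖((v g : ℝ) : ℂ)‖ ≤ B := fun g => by rw [Complex.norm_real]; exact hv g
  have hc := count_le (f := fun g => ((u g : ℝ) : ℂ)) (g := fun g => ((v g : ℝ) : ℂ)) hA hB hf hg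
    (N := N) fun ξ T hT => hN ξ T fun γ hγ => by
      obtain ⟨h1, h2⟩ := hT γ hγ
      exact ⟨fun h3 => h1 (by rw [h3, Complex.ofReal_zero]),
        fun h3 => h2 (by rw [h3, Complex.ofReal_zero])⟩
  exact trn_dg hp.adjP hp.adjL hp.comm hp.Wadj hp.WP hp.nΩ hp.tr_conj hM (dg_mp h hu)
    (dg_mp h hv) cu cv hc x y

/-- **(I1) for nonnegative functions on `Γ`.** -/
theorem i1_PF (hp : Pic π lam W Ω) (h : Fn mp) (hM : Ms lam W Ω (st mp))
    (hmW : ∀ a ∈ W, ∀ F : Γ → ℝ, (∀ g, |F g| ≤ 1) → a * mp F = mp F * a)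
    {ι κ : Type*} {l : Filter ι} {l' : Filter κ} [l.NeBot] [l'.NeBot] {x : ι → G} {y : κ → G}
    {u v : Γ → ℝ} {A B : ℝ} (hu0 : ∀ g, 0 ≤ u g) (hu : ∀ g, u g ≤ A) (hv0 : ∀ g, 0 ≤ v g)
    (hv : ∀ g, v g ≤ B) {E F : K →L[ℂ] K}
    (hE : WLim l (fun i => PF mp (fun g => π g) (x i) u) E)
    (hF : WLim l' (fun j => PF mp (fun g => π g) (y j) v) F) {N : ℕ}
    (hN : ∀ ξ : Γ, ∀ S : Finset Γ, (∀ γ ∈ S, v γ ≠ 0 ∧ u (γ * ξ) ≠ 0) → S.card ≤ N)
    {S : Set G} (hS : Moore S) (hES : ∀ g ∈ S, E * π g = π g * E)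
    (hFS : ∀ g ∈ S, F * π g = π g * F) : E * F = 0 := by
  obtain ⟨u', hu'⟩ : ∃ u' : Γ → ℝ, u' = fun g => Real.sqrt (u g) := ⟨_, rfl⟩
  obtain ⟨v', hv'⟩ : ∃ v' : Γ → ℝ, v' = fun g => Real.sqrt (v g) := ⟨_, rfl⟩
  have hsA : ∀ g, |u' g| ≤ Real.sqrt A := fun g => by
    rw [hu', abs_of_nonneg (Real.sqrt_nonneg _)]
    exact Real.sqrt_le_sqrt (hu g)
  have hsB : ∀ g, |v' g| ≤ Real.sqrt B := fun g => by
    rw [hv', abs_of_nonneg (Real.sqrt_nonneg _)]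
    exact Real.sqrt_le_sqrt (hv g)
  have cmA : Cm W (mp u') := cm_mp h hmW hsA
  have cmB : Cm W (mp v') := cm_mp h hmW hsB
  have hN' : ∀ ξ : Γ, ∀ S : Finset Γ, (∀ γ ∈ S, v' γ ≠ 0 ∧ u' (γ * ξ) ≠ 0) → S.card ≤ N := by
    intro ξ T hT
    refine hN ξ T fun γ hγ => ?_
    obtain ⟨h1, h2⟩ := hT γ hγ
    rw [hv'] at h1
    rw [hu'] at h2
    exact ⟨fun h3 => h1 (by simp only [h3, Real.sqrt_zero]),
      fun h3 => h2 (by simp only [h3, Real.sqrt_zero])⟩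
  have hT := fun i j => trn_PF hp h hM hsA hsB (Real.sqrt_nonneg _) (Real.sqrt_nonneg _) cmA cmB
    hN' (x i) (y j)
  have hE' : WLim l (fun i => adjoint (π (x i)⁻¹ * mp u' * π (x i)) *
      (π (x i)⁻¹ * mp u' * π (x i))) E := by
    refine hE.congr fun i => ?_
    rw [hu']
    exact (pf_sqrt hp.adjP h hu0 hu _).symm
  have hF' : WLim l' (fun j => adjoint (π (y j)⁻¹ * mp v' * π (y j)) *
      (π (y j)⁻¹ * mp v' * π (y j))) F := by
    refine hF.congr fun i => ?_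
    rw [hv']
    exact (pf_sqrt hp.adjP h hv0 hv _).symm
  have cmx : ∀ {T : K →L[ℂ] K}, Cm W T → ∀ g, Cm W (π g⁻¹ * T * π g) := by
    intro T hT g
    have := cm_conj (π := π) hp.WP hT g⁻¹
    rwa [inv_inv] at this
  have hlt : (N : ℝ≥0∞) * ENNReal.ofReal (Real.sqrt B ^ 2 * Real.sqrt A ^ 2) < ∞ :=
    ENNReal.mul_lt_top (ENNReal.natCast_lt_top N) ENNReal.ofReal_lt_top
  exact i1_zero hp (fun i => cmx cmA (x i)) (fun j => cmx cmB (y j)) hE' hF' hlt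
    (Eventually.of_forall fun j => (Eventually.of_forall fun i => hT i j).frequently).frequently
    hS hES hFS

/-- the count may be verified off finite sets -/
theorem count_exc {P Q : Γ → Prop} {Φ Φ' : Set Γ} (hΦ : Φ.Finite) (hΦ' : Φ'.Finite) {N : ℕ}
    (hN : ∀ ξ : Γ, ∀ S : Finset Γ, (∀ γ ∈ S, Q γ ∧ γ ∉ Φ' ∧ P (γ * ξ) ∧ γ * ξ ∉ Φ) →
      S.card ≤ N) : ∃ N' : ℕ, ∀ ξ : Γ, ∀ S : Finset Γ, (∀ γ ∈ S, Q γ ∧ P (γ * ξ)) →
      S.card ≤ N' := by
  classical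
  refine ⟨N + hΦ'.toFinset.card + hΦ.toFinset.card, fun ξ S hS => ?_⟩
  have h1 : S ⊆ (S.filter (fun γ => γ ∉ Φ' ∧ γ * ξ ∉ Φ) ∪ S.filter (fun γ => γ ∈ Φ')) ∪
      S.filter (fun γ => γ * ξ ∈ Φ) := by
    intro γ hγ
    simp only [Finset.mem_union, Finset.mem_filter]
    tauto
  have h2 : (S.filter (fun γ => γ ∉ Φ' ∧ γ * ξ ∉ Φ)).card ≤ N := by
    refine hN ξ _ fun γ hγ => ?_
    obtain ⟨h3, h4, h5⟩ := Finset.mem_filter.1 hγ
    exact ⟨(hS γ h3).1, h4, (hS γ h3).2, h5⟩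
  have h3 : (S.filter (fun γ => γ ∈ Φ')).card ≤ hΦ'.toFinset.card := by
    refine Finset.card_le_card fun γ hγ => ?_
    rw [Set.Finite.mem_toFinset]
    exact (Finset.mem_filter.1 hγ).2
  have h4 : (S.filter (fun γ => γ * ξ ∈ Φ)).card ≤ hΦ.toFinset.card := by
    refine Finset.card_le_card_of_injOn (fun γ => γ * ξ) (fun γ hγ => ?_)
      fun a _ b _ hab => mul_right_cancel hab
    rw [Finset.mem_coe, Set.Finite.mem_toFinset]
    exact (Finset.mem_filter.1 (Finset.mem_coe.1 hγ)).2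
  refine (Finset.card_le_card h1).trans ((Finset.card_union_le _ _).trans
    (add_le_add ((Finset.card_union_le _ _).trans (add_le_add h2 h3)) h4))

section ul

variable {Y Y' : Type*} [TopologicalSpace Y] [CompactSpace Y] [TopologicalSpace Y']
  [CompactSpace Y']

theorem star_mul_self_apply' (f : C(Y, ℂ)) (y : Y) :
    (star f * f) y = ((‖f y‖ ^ 2 : ℝ) : ℂ) := by
  change (starRingEnd ℂ) (f y) * f y = _
  rw [← Complex.normSq_eq_conj_mul_self, Complex.normSq_eq_norm_sq]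

/-- from the positive case to the general case, by Kadison -/
theorem mul_zero_of_sq {E : C(Y, ℂ) →ₗ[ℂ] (K →L[ℂ] K)} {F : C(Y', ℂ) →ₗ[ℂ] (K →L[ℂ] K)}
    {p p' : ℝ} (hUE : UL E p) (hUF : UL F p') {f : C(Y, ℂ)} {g : C(Y', ℂ)}
    (h : E (star f * f) * F (star g * g) = 0) : E f * F g = 0 ∧ F g * E f = 0 := by
  have kE : ∀ (f : C(Y, ℂ)) ξ, ‖E f ξ‖ ^ 2 ≤ (⟪ξ, E (star f * f) ξ⟫_ℂ).re := fun f ξ => by
    have h1 := hUE.bes 1 (fun _ => f) ξ
    simpa only [Fin.sum_univ_one] using h1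
  have kF : ∀ (f : C(Y', ℂ)) ξ, ‖F f ξ‖ ^ 2 ≤ (⟪ξ, F (star f * f) ξ⟫_ℂ).re := fun f ξ => by
    have h1 := hUF.bes 1 (fun _ => f) ξ
    simpa only [Fin.sum_univ_one] using h1
  have star0 : ∀ {A B : K →L[ℂ] K}, A * B = 0 → star B * star A = 0 := fun {A B} hAB => by
    rw [← star_mul, hAB, star_zero]
  have sE : star (E (star f * f)) = E (star f * f) := by
    rw [← hUE.star, star_mul, star_star]
  have sF : star (F (star g * g)) = F (star g * g) := by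
    rw [← hUF.star, star_mul, star_star]
  -- `E f' * F (star g * g) = 0` for `f' = f, star f`
  have h1 : ∀ f' : C(Y, ℂ), star f' * f' = star f * f → E f' * F (star g * g) = 0 := by
    intro f' hf'
    ext ξ
    have h2 := kE f' (F (star g * g) ξ)
    have h3 : E (star f' * f') (F (star g * g) ξ) = 0 := by
      rw [hf']
      exact congrArg (fun T : K →L[ℂ] K => T ξ) h
    rw [h3, inner_zero_right, Complex.zero_re] at h2
    have h4 : ‖E f' (F (star g * g) ξ)‖ = 0 := by nlinarith [norm_nonneg (E f' (F (star g * g) ξ))]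
    exact norm_eq_zero.1 h4
  have h5 : ∀ f' : C(Y, ℂ), star f' * f' = star f * f → F (star g * g) * E f' = 0 := by
    intro f' hf'
    have h6 := star0 (h1 (star f') (by rw [star_star, mul_comm, hf']))
    rwa [sF, ← hUE.star, star_star] at h6
  have h7 : ∀ (f' : C(Y, ℂ)) (g' : C(Y', ℂ)), star f' * f' = star f * f →
      star g' * g' = star g * g → F g' * E f' = 0 := by
    intro f' g' hf' hg'
    ext ξ
    have h2 := kF g' (E f' ξ)
    have h3 : F (star g' * g') (E f' ξ) = 0 := by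
      rw [hg']
      exact congrArg (fun T : K →L[ℂ] K => T ξ) (h5 f' hf')
    rw [h3, inner_zero_right, Complex.zero_re] at h2
    have h4 : ‖F g' (E f' ξ)‖ = 0 := by nlinarith [norm_nonneg (F g' (E f' ξ))]
    exact norm_eq_zero.1 h4
  refine ⟨?_, h7 f g rfl rfl⟩
  have h8 := star0 (h7 (star f) (star g) (by rw [star_star, mul_comm])
    (by rw [star_star, mul_comm]))
  rwa [← hUE.star, ← hUF.star, star_star, star_star] at h8

/-- **[P-I1] in the letters of the engine.** -/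
theorem i1_ul (hp : Pic π lam W Ω) (h : Fn mp) (hM : Ms lam W Ω (st mp))
    (hmW : ∀ a ∈ W, ∀ F : Γ → ℝ, (∀ g, |F g| ≤ 1) → a * mp F = mp F * a)
    {ι κ : Type*} {l : Filter ι} {l' : Filter κ} [l.NeBot] [l'.NeBot] {x : ι → G} {y : κ → G}
    (D D' : ℝ → Set Γ) (bp : Γ → Y) (bp' : Γ → Y')
    {E : C(Y, ℂ) →ₗ[ℂ] (K →L[ℂ] K)} {F : C(Y', ℂ) →ₗ[ℂ] (K →L[ℂ] K)} {p p' : ℝ}
    (hUE : UL E p) (hUF : UL F p') (Ec : ℝ → C(Y, ℂ) → (K →L[ℂ] K))
    (Fc : ℝ → C(Y', ℂ) → (K →L[ℂ] K))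
    (wE : ∀ r f, WLim l (fun i => PC mp (fun g => π g) (x i)
      (fun g => (ind (fun g => g ∈ D r) g : ℂ) * f (bp g))) (Ec r f))
    (wF : ∀ r f, WLim l' (fun j => PC mp (fun g => π g) (y j)
      (fun g => (ind (fun g => g ∈ D' r) g : ℂ) * f (bp' g))) (Fc r f))
    (tE : ∀ f, WLim atTop (fun r => Ec r f) (E f))
    (tF : ∀ f, WLim atTop (fun r => Fc r f) (F f))
    {S : Set G} (hS : Moore S) (cE : ∀ r f, ∀ g ∈ S, Ec r f * π g = π g * Ec r f)
    (cF : ∀ r f, ∀ g ∈ S, Fc r f * π g = π g * Fc r f) {f : C(Y, ℂ)} {g : C(Y', ℂ)}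
    (hc : ∀ r r', ∃ N : ℕ, ∀ (ξ : Γ) (T : Finset Γ),
      (∀ γ ∈ T, (γ ∈ D' r' ∧ g (bp' γ) ≠ 0) ∧ γ * ξ ∈ D r ∧ f (bp (γ * ξ)) ≠ 0) → T.card ≤ N) :
    E f * F g = 0 ∧ F g * E f = 0 := by
  refine mul_zero_of_sq hUE hUF ?_
  -- the cut-offs
  have key : ∀ r r', Ec r (star f * f) * Fc r' (star g * g) = 0 := by
    intro r r'
    obtain ⟨N, hN⟩ := hc r r'
    obtain ⟨u, hu⟩ : ∃ u : Γ → ℝ, u = fun γ => ind (fun g => g ∈ D r) γ * ‖f (bp γ)‖ ^ 2 :=
      ⟨_, rfl⟩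
    obtain ⟨v, hv⟩ : ∃ v : Γ → ℝ, v = fun γ => ind (fun g => g ∈ D' r') γ * ‖g (bp' γ)‖ ^ 2 :=
      ⟨_, rfl⟩
    have hu' : (fun γ => (ind (fun g => g ∈ D r) γ : ℂ) * (star f * f) (bp γ)) =
        fun γ => ((u γ : ℝ) : ℂ) := by
      funext γ
      rw [star_mul_self_apply', hu]
      push_cast
      ring
    have hv' : (fun γ => (ind (fun g => g ∈ D' r') γ : ℂ) * (star g * g) (bp' γ)) =
        fun γ => ((v γ : ℝ) : ℂ) := by
      funext γ
      rw [star_mul_self_apply', hv]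
      push_cast
      ring
    have w1 := wE r (star f * f)
    have w2 := wF r' (star g * g)
    rw [hu'] at w1
    rw [hv'] at w2
    refine i1_PF hp h hM hmW (u := u) (v := v) (A := ‖f‖ ^ 2) (B := ‖g‖ ^ 2) (fun γ => ?_)
      (fun γ => ?_) (fun γ => ?_) (fun γ => ?_) (w1.congr fun i => PC_real h _ _)
      (w2.congr fun j => PC_real h _ _) (N := N) (fun ξ T hT => hN ξ T fun γ hγ => ?_) hS
      (cE r _) (cF r' _)
    · rw [hu]
      exact mul_nonneg (ind_nonneg _ _) (sq_nonneg _)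
    · rw [hu]
      calc _ ≤ 1 * ‖f‖ ^ 2 := mul_le_mul (ind_le_one _ _)
            (pow_le_pow_left₀ (norm_nonneg _) (f.norm_coe_le_norm _) 2) (sq_nonneg _) zero_le_one
        _ = _ := one_mul _
    · rw [hv]
      exact mul_nonneg (ind_nonneg _ _) (sq_nonneg _)
    · rw [hv]
      calc _ ≤ 1 * ‖g‖ ^ 2 := mul_le_mul (ind_le_one _ _)
            (pow_le_pow_left₀ (norm_nonneg _) (g.norm_coe_le_norm _) 2) (sq_nonneg _) zero_le_one
        _ = _ := one_mul _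
    · obtain ⟨h1, h2⟩ := hT γ hγ
      rw [hv] at h1
      rw [hu] at h2
      have h3 := left_ne_zero_of_mul h1
      have h4 := right_ne_zero_of_mul h1
      have h5 := left_ne_zero_of_mul h2
      have h6 := right_ne_zero_of_mul h2
      refine ⟨⟨?_, ?_⟩, ?_, ?_⟩
      · by_contra hcon
        exact h3 (ind_neg hcon)
      · intro h7
        rw [h7, norm_zero] at h4
        exact h4 (by norm_num)
      · by_contra hcon
        exact h5 (ind_neg hcon)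
      · intro h7
        rw [h7, norm_zero] at h6
        exact h6 (by norm_num)
  -- the limits
  have k1 : ∀ r', E (star f * f) * Fc r' (star g * g) = 0 := fun r' =>
    ((tE (star f * f)).mul_right (Fc r' (star g * g))).unique
      ((WLim.const (0 : K →L[ℂ] K)).congr fun r => (key r r').symm)
  exact ((tF (star g * g)).mul_left (E (star f * f))).unique
    ((WLim.const (0 : K →L[ℂ] K)).congr fun r => (k1 r).symm)

end ul

end Vale.Agent.P092.H494.PI
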